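import Vale.Agent.P363.KS.FormSpec

/-!
P363: the average over the rotations about the axis `2` and the mirror.
-/

noncomputable section

namespace Vale.Agent.P363

open MeasureTheory Filter Set
open scoped BigOperators Topology ENNReal Real

@[simp] theorem mirror_zero (x : Space) : mirror x 0 = x 0 := by simp [mirror, height, unit3]

@[simp] theorem mirror_one (x : Space) : mirror x 1 = x 1 := by simp [mirror, height, unit3]

@[simp] theorem mirror_two (x : Space) : mirror x 2 = -x 2 := by
  simp [mirror, height, unit3]; ring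

@[simp] theorem rot_zero (θ : ℝ) (x : Space) :
    rot θ x 0 = Real.cos θ * x 0 - Real.sin θ * x 1 := by simp [rot]

@[simp] theorem rot_one (θ : ℝ) (x : Space) :
    rot θ x 1 = Real.sin θ * x 0 + Real.cos θ * x 1 := by simp [rot]

@[simp] theorem rot_two (θ : ℝ) (x : Space) : rot θ x 2 = x 2 := by simp [rot]

theorem rot_rot (θ φ : ℝ) (x : Space) : rot θ (rot φ x) = rot (θ + φ) x := by
  ext i; fin_cases i <;> simp [Real.cos_add, Real.sin_add] <;> ring

theorem rot_zero_angle (x : Space) : rot 0 x = x := by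
  ext i; fin_cases i <;> simp

theorem rot_two_pi (θ : ℝ) (x : Space) : rot (θ + 2 * π) x = rot θ x := by
  ext i; fin_cases i <;> simp [Real.cos_add_two_pi, Real.sin_add_two_pi]

theorem mirror_rot (θ : ℝ) (x : Space) : mirror (rot θ x) = rot θ (mirror x) := by
  ext i; fin_cases i <;> simp

theorem mirror_mirror' (x : Space) : mirror (mirror x) = x := by
  ext i; fin_cases i <;> simp

/-- The element `(b, θ)` of the symmetry group. -/
def axMap (b : Bool) (θ : ℝ) (x : Space) : Space := if b then rot θ (mirror x) else rot θ x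

/-- The same as an isometry. -/
def axIso (b : Bool) (θ : ℝ) : Space ≃ₗᵢ[ℝ] Space where
  toFun := axMap b θ
  invFun := fun x => if b then mirror (rot (-θ) x) else rot (-θ) x
  left_inv x := by
    cases b <;> simp [axMap, rot_rot, rot_zero_angle, mirror_mirror']
  right_inv x := by
    cases b <;> simp [axMap, rot_rot, rot_zero_angle, mirror_mirror']
  map_add' x y := by
    cases b <;> ext i <;> fin_cases i <;> simp [axMap] <;> ring
  map_smul' c x := by
    cases b <;> ext i <;> fin_cases i <;> simp [axMap] <;> ring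
  norm_map' x := by
    show ‖axMap b θ x‖ = ‖x‖
    simp only [EuclideanSpace.norm_eq, Fin.sum_univ_three, Real.norm_eq_abs, sq_abs]
    congr 1
    cases b <;> simp [axMap] <;>
      linear_combination (x 0 ^ 2 + x 1 ^ 2) * Real.sin_sq_add_cos_sq θ

@[simp] theorem axIso_apply (b : Bool) (θ : ℝ) (x : Space) : axIso b θ x = axMap b θ x := rfl

/-- The invariant probability measure on the group. -/
def axMeas : Measure (Bool × ℝ) :=
  ENNReal.ofReal (4 * π)⁻¹ • (Measure.count : Measure Bool).prod (volume.restrict (Ioc 0 (2 * π)))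

instance : IsProbabilityMeasure axMeas := by
  refine ⟨?_⟩
  rw [axMeas, Measure.smul_apply, ← Set.univ_prod_univ, Measure.prod_prod, Measure.count_univ,
    Measure.restrict_apply_univ, Real.volume_Ioc, smul_eq_mul]
  rw [show (ENat.card Bool : ℝ≥0∞) = ENNReal.ofReal 2 by simp, sub_zero,
    ← ENNReal.ofReal_mul zero_le_two, ← ENNReal.ofReal_mul (by positivity), ← ENNReal.ofReal_one]
  congr 1
  field_simp
  ring

/-- The average of a function over the group. -/
def axAvg (f : Space → ℝ≥0∞) (x : Space) : ℝ≥0∞ := ∫⁻ p, f (axMap p.1 p.2 x) ∂axMeas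

theorem continuous_rot : Continuous fun z : ℝ × Space => rot z.1 z.2 := by
  unfold rot
  fun_prop

theorem continuous_mirror' : Continuous mirror := by
  unfold mirror height
  fun_prop

seal rot mirror in

theorem measurable_axMap :
    Measurable fun z : (Bool × ℝ) × Space => axMap z.1.1 z.1.2 z.2 := by
  have h : Measurable fun z : ℝ × Space => rot z.1 z.2 := continuous_rot.measurable
  have hb : Measurable fun z : (Bool × ℝ) × Space => z.1.1 := measurable_fst.fst
  have h1 : Measurable fun z : (Bool × ℝ) × Space => rot z.1.2 z.2 :=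
    h.comp (measurable_fst.snd.prodMk measurable_snd)
  have h2 : Measurable fun z : (Bool × ℝ) × Space => rot z.1.2 (mirror z.2) :=
    h.comp (measurable_fst.snd.prodMk (continuous_mirror'.measurable.comp measurable_snd))
  exact Measurable.ite (p := fun z : (Bool × ℝ) × Space => z.1.1 = true)
    (hb (measurableSet_singleton true)) h2 h1

theorem measurable_axAvg {f : Space → ℝ≥0∞} (hf : Measurable f) : Measurable (axAvg f) :=
  Measurable.lintegral_prod_left' (hf.comp measurable_axMap)

theorem axAvg_eq {f : Space → ℝ≥0∞} (hf : Measurable f) (x : Space) :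
    axAvg f x = ENNReal.ofReal (4 * π)⁻¹ * ((∫⁻ θ in Ioc 0 (2 * π), f (rot θ (mirror x))) +
      ∫⁻ θ in Ioc 0 (2 * π), f (rot θ x)) := by
  have hm : Measurable fun p : Bool × ℝ => f (axMap p.1 p.2 x) :=
    hf.comp (measurable_axMap.comp (measurable_id.prodMk measurable_const))
  rw [axAvg, axMeas, lintegral_smul_measure, lintegral_prod _ hm.aemeasurable, lintegral_count,
    tsum_fintype, Fintype.sum_bool, smul_eq_mul]
  simp [axMap]

theorem lintegral_periodic {T : ℝ} (hT : 0 < T) {f : ℝ → ℝ≥0∞} (hf : Function.Periodic f T)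
    (c : ℝ) : ∫⁻ θ in Ioc 0 T, f (θ + c) = ∫⁻ θ in Ioc 0 T, f θ := by
  have : VAddInvariantMeasure (AddSubgroup.zmultiples T) ℝ volume :=
    ⟨fun c s _ => measure_preimage_add _ _ _⟩
  have h1 : ∫⁻ θ in Ioc 0 T, f (θ + c) = ∫⁻ θ in Ioc c (c + T), f θ := by
    have := (measurePreserving_add_right (volume : Measure ℝ) c).setLIntegral_comp_preimage_emb
      (MeasurableEquiv.addRight c).measurableEmbedding f (Ioc c (c + T))
    rw [preimage_add_const_Ioc, sub_self, add_sub_cancel_left] at this
    exact this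
  have h2 := IsAddFundamentalDomain.setLIntegral_eq (isAddFundamentalDomain_Ioc hT c)
    (isAddFundamentalDomain_Ioc hT 0) f hf.map_vadd_zmultiples
  rw [zero_add] at h2
  exact h1.trans h2

theorem axAvg_sym {f : Space → ℝ≥0∞} (hf : Measurable f) : AxialSym (axAvg f) := by
  refine ⟨fun φ x => ?_, fun x => ?_⟩
  · simp only [axAvg_eq hf, mirror_rot, rot_rot]
    rw [lintegral_periodic (f := fun θ => f (rot θ (mirror x))) Real.two_pi_pos
        (fun θ => by simp [rot_two_pi]) φ,
      lintegral_periodic (f := fun θ => f (rot θ x)) Real.two_pi_pos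
        (fun θ => by simp [rot_two_pi]) φ]
  · simp only [axAvg_eq hf, mirror_mirror']
    rw [add_comm]

theorem axAvg_add {f g : Space → ℝ≥0∞} (hf : Measurable f) (x : Space) :
    axAvg (fun y => f y + g y) x = axAvg f x + axAvg g x :=
  lintegral_add_left (hf.comp (measurable_axMap.comp (measurable_id.prodMk measurable_const))) _

theorem axAvg_mono {f g : Space → ℝ≥0∞} (h : ∀ y, f y ≤ g y) (x : Space) :
    axAvg f x ≤ axAvg g x :=
  lintegral_mono fun _ => h _

theorem axAvg_const (C : ℝ≥0∞) (x : Space) : axAvg (fun _ => C) x = C := by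
  simp [axAvg]

/-- Averaging against an invariant weight. -/
theorem lintegral_axAvg_mul {f ρ : Space → ℝ≥0∞} (hf : Measurable f) (hρ : AEMeasurable ρ)
    (hsym : AxialSymAE ρ) : ∫⁻ x, axAvg f x * ρ x = ∫⁻ x, f x * ρ x := by
  have hinv : ∀ p : Bool × ℝ, ∀ᵐ x : Space, ρ (axMap p.1 p.2 x) = ρ x := by
    rintro ⟨b, θ⟩
    cases b
    · simpa [axMap] using hsym.1 θ
    · have := (axIso true 0).measurePreserving.quasiMeasurePreserving.ae (hsym.1 θ)
      filter_upwards [this, hsym.2] with x hx hx'
      simp only [axMap, ↓reduceIte, axIso_apply, rot_zero_angle] at hx ⊢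
      rw [hx, hx']
  have hmul : ∀ x, axAvg f x * ρ x = ∫⁻ p, f (axMap p.1 p.2 x) * ρ x ∂axMeas := fun x =>
    (lintegral_mul_const _ (hf.comp (measurable_axMap.comp
      (measurable_id.prodMk measurable_const)))).symm
  have hjoint : AEMeasurable
      (Function.uncurry fun (x : Space) (p : Bool × ℝ) => f (axMap p.1 p.2 x) * ρ x)
      ((volume : Measure Space).prod axMeas) :=
    ((hf.comp (measurable_axMap.comp measurable_swap)).aemeasurable).mul hρ.comp_fst
  simp only [hmul]
  rw [lintegral_lintegral_swap hjoint]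
  have : ∀ p : Bool × ℝ, ∫⁻ x, f (axMap p.1 p.2 x) * ρ x = ∫⁻ x, f x * ρ x := by
    intro p
    rw [lintegral_congr_ae ((hinv p).mono fun x hx => by rw [← hx])]
    exact (axIso p.1 p.2).measurePreserving.lintegral_comp_emb
      (axIso p.1 p.2).toMeasurableEquiv.measurableEmbedding fun y => f y * ρ y
  simp [this]

/-- Jensen. -/
theorem axAvg_rpow_le {f : Space → ℝ≥0∞} (hf : Measurable f) {p : ℝ} (hp : 1 < p) :
    ∫⁻ x, axAvg f x ^ p ≤ ∫⁻ x, f x ^ p := by
  have hone : AxialSymAE fun _ : Space => (1 : ℝ≥0∞) :=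
    ⟨fun _ => ae_of_all _ fun _ => rfl, ae_of_all _ fun _ => rfl⟩
  have hJ : ∀ x, axAvg f x ^ p ≤ axAvg (fun y => f y ^ p) x := by
    intro x
    have hpq := Real.HolderConjugate.conjExponent hp
    have hm : Measurable fun q : Bool × ℝ => f (axMap q.1 q.2 x) :=
      hf.comp (measurable_axMap.comp (measurable_id.prodMk measurable_const))
    have := ENNReal.lintegral_mul_le_Lp_mul_Lq axMeas hpq hm.aemeasurable
      (aemeasurable_const (b := (1 : ℝ≥0∞)))
    simp only [Pi.mul_apply, mul_one, ENNReal.one_rpow, lintegral_one, measure_univ] at this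
    calc axAvg f x ^ p ≤ ((∫⁻ q, f (axMap q.1 q.2 x) ^ p ∂axMeas) ^ (1 / p)) ^ p :=
          ENNReal.rpow_le_rpow this (by linarith)
      _ = _ := by
          rw [← ENNReal.rpow_mul, one_div, inv_mul_cancel₀ (by linarith), ENNReal.rpow_one]
          rfl
  calc ∫⁻ x, axAvg f x ^ p ≤ ∫⁻ x, axAvg (fun y => f y ^ p) x * 1 := by
        simpa using lintegral_mono hJ
    _ = ∫⁻ x, f x ^ p * 1 := lintegral_axAvg_mul (hf.pow_const p) aemeasurable_const hone
    _ = _ := by simp

end Vale.Agent.P363
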