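import Vale.Agent.P363.KS.Reg.Upgrade
import Vale.Agent.P363.KS.Reg.Gradient
import Vale.Agent.P363.Tool.Sobolev.Main
import Vale.Agent.P363.Tool.YukHess

/-!
P363: the regularity of the orbitals of a shell structure over a regular density.
-/

noncomputable section

namespace Vale.Agent.P363

open MeasureTheory Filter Set
open scoped BigOperators Topology ENNReal

namespace Reg

lemma topH1_congr {f f' : Space → ℝ} {F : Fin 3 → Space → ℝ} (h : Top.IsH1 f F)
    (he : f' =ᵐ[volume] f) : Top.IsH1 f' F :=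
  ⟨h.memLp.ae_eq he.symm, h.memLp_grad,
    h.grad.congr_ae isOpen_univ (ae_restrict_of_ae he.symm) fun _ => EventuallyEq.rfl⟩

lemma eigen_congr {v f f' : Space → ℝ} {e : ℝ} {F : Fin 3 → Space → ℝ}
    (h : Top.IsFormEigen v e f F) (he : f' =ᵐ[volume] f) : Top.IsFormEigen v e f' F := by
  refine ⟨topH1_congr h.h1 he, fun g G hg => ?_⟩
  rw [← h.eqn g G hg]
  refine integral_congr_ae ?_
  filter_upwards [he] with x hx
  rw [hx]

lemma eigen_const_mul {v f : Space → ℝ} {e : ℝ} {F : Fin 3 → Space → ℝ}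
    (h : Top.IsFormEigen v e f F) (c : ℝ) :
    Top.IsFormEigen v e (fun x => c * f x) fun a x => c * F a x := by
  refine ⟨⟨h.h1.memLp.const_mul c, fun a => (h.h1.memLp_grad a).const_mul c,
    h.h1.grad.const_mul c⟩, fun g G hg => ?_⟩
  rw [← mul_zero c, ← h.eqn g G hg, Top.bil, Top.bil, ← integral_const_mul]
  refine integral_congr_ae (.of_forall fun x => ?_)
  simp only [Fin.sum_univ_three]
  ring

lemma shells_congr {v φ₀ φ₀' : Space → ℝ} {e₀ μ : ℝ} {f f' : ℕ → Space → ℝ} {ρ : Space → ℝ≥0∞}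
    (h : Shells v φ₀ e₀ μ f ρ) (h0 : φ₀' =ᵐ[volume] φ₀) (hf : ∀ j, f' j =ᵐ[volume] f j) :
    Shells v φ₀' e₀ μ f' ρ := by
  obtain ⟨F₀, hF₀⟩ := h.level.ground
  have e1 : ∀ g : Space → ℝ, (∫ x, g x * φ₀' x) = ∫ x, g x * φ₀ x := fun g =>
    integral_congr_ae (h0.mono fun x hx => by simp only [hx])
  refine
    { level :=
        { loc := h.level.loc
          pot := h.level.pot
          ground := ⟨F₀, eigen_congr hF₀ h0⟩
          pos := by filter_upwards [h.level.pos, h0] with x hx he; rwa [he]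
          le := fun g G hg hgo => h.level.le g G hg (by rwa [← e1]) }
      gap := h.gap
      norm_one := ?_
      simple := fun g G hg hb => ?_
      eigen := fun j => (h.eigen j).imp fun F hF => eigen_congr hF (hf j)
      orth := fun j => ?_
      total := ?_
      density_eq := ?_ }
  · rw [← h.norm_one]
    exact integral_congr_ae (h0.mono fun x hx => by simp only [hx])
  · filter_upwards [h.simple g G hg hb, h0] with x hx he
    rw [hx, e1, he]
  · rw [e1, ← h.orth j]
    exact integral_congr_ae ((hf j).mono fun x hx => by simp only [hx])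
  · rw [← h.total]
    congr 1
    funext j
    exact congrArg ENNReal.ofReal (integral_congr_ae ((hf j).mono fun x hx => by simp only [hx]))
  · filter_upwards [h.density_eq, h0, ae_all_iff.2 hf] with x hx he hfx
    simp only [hx, he, hfx]

/-- The family of a shell structure. -/
def shellPsi (φ₀ : Space → ℝ) (f : ℕ → Space → ℝ) : ℕ → Space → ℝ
  | 0 => fun x => Real.sqrt 2 * φ₀ x
  | j + 1 => f j

/-- Its levels. -/
def shellLevel (e₀ μ : ℝ) : ℕ → ℝ
  | 0 => e₀
  | _ + 1 => μ

lemma exists_family {P : Finset Space} {v φ₀ : Space → ℝ} {e₀ μ : ℝ} {f : ℕ → Space → ℝ}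
    {n ln : Space → ℝ} (hv : InV v) (hn : DensityReg P n ln)
    (h : Shells v φ₀ e₀ μ f fun x => ENNReal.ofReal (n x)) :
    ∃ G M, Family v n ln (shellPsi φ₀ f) G (shellLevel e₀ μ) μ M := by
  obtain ⟨F₀, hF₀⟩ := h.level.ground
  choose F hF using h.eigen
  refine ⟨fun | 0 => fun a x => Real.sqrt 2 * F₀ a x | j + 1 => F j, |e₀| + |μ|,
    ?_, hn.continuous, hn.positive, hn.poisson, hn.lap_two, fun j => ?_, ?_, fun j => ?_⟩
  · obtain ⟨v₁, v₂, h1, h2, rfl⟩ := hv
    have e : ENNReal.ofReal (3 / 2) = 3 / 2 := by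
      rw [ENNReal.ofReal_div_of_pos two_pos, ENNReal.ofReal_ofNat, ENNReal.ofReal_ofNat]
    rw [e]
    exact (LocMemLp.of_memLp h1).add ((LocMemLp.of_memLp h2).mono_exponent le_top)
  · match j with
    | 0 => exact eigen_const_mul hF₀ _
    | j + 1 => exact hF j
  · filter_upwards [h.density_eq] with x hx
    have hfin : ∑' j, ENNReal.ofReal (f j x ^ 2) ≠ ∞ := fun ht => by
      rw [ht, add_top] at hx
      exact ENNReal.ofReal_ne_top hx
    have hs : Summable fun j => f j x ^ 2 :=
      (ENNReal.summable_toReal hfin).congr fun j => ENNReal.toReal_ofReal (sq_nonneg _)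
    rw [← ENNReal.ofReal_tsum_of_nonneg (fun j => sq_nonneg _) hs,
      show (2 : ℝ≥0∞) = ENNReal.ofReal 2 by simp, ← ENNReal.ofReal_mul zero_le_two,
      ← ENNReal.ofReal_add (by positivity) (tsum_nonneg fun j => sq_nonneg _),
      ENNReal.ofReal_eq_ofReal_iff (hn.positive x).le
        (add_nonneg (by positivity) (tsum_nonneg fun j => sq_nonneg _))] at hx
    rw [hx]
    have h' : HasSum (fun j => shellPsi φ₀ f (j + 1) x ^ 2) (∑' j, f j x ^ 2) := hs.hasSum
    have h2 := (hasSum_nat_add_iff (f := fun j => shellPsi φ₀ f j x ^ 2) 1).1 h'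
    have e : (∑ i ∈ Finset.range 1, shellPsi φ₀ f i x ^ 2) = 2 * φ₀ x ^ 2 := by
      simp [shellPsi, mul_pow]
    rw [e, add_comm] at h2
    exact h2
  · match j with
    | 0 => exact ⟨le_add_of_nonneg_right (abs_nonneg _), h.gap.le⟩
    | j + 1 => exact ⟨le_add_of_nonneg_left (abs_nonneg _), le_rfl⟩

end Reg

open Reg

/-- A shell structure over a regular density has regular representatives, given the two analytic
inputs. -/
theorem regularity_of (hS : SobolevSixStmt) (hH : HessTestStmt) :
    RegularitySpec.RegularityStmt := by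
  intro P v φ₀ e₀ μ f n ln hv hn hsh
  obtain ⟨G, M, D⟩ := exists_family hv hn hsh
  have hU : IsOpen ((↑P : Set Space)ᶜ) := P.finite_toSet.isClosed.isOpen_compl
  obtain ⟨ψ', hc, he, hd, hb⟩ := D.exists_regular hS hH hU hn.lap_bdd
  set r2 := Real.sqrt 2
  have hr : 0 < r2 := Real.sqrt_pos.2 two_pos
  have hr2 : r2 ^ 2 = 2 := Real.sq_sqrt zero_le_two
  have h0 : (fun x => r2⁻¹ * ψ' 0 x) =ᵐ[volume] φ₀ := by
    filter_upwards [he 0] with x hx
    rw [hx]
    simp only [shellPsi, r2]
    field_simp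
  have hf : ∀ j, (fun x => ψ' (j + 1) x) =ᵐ[volume] f j := fun j => he (j + 1)
  refine ⟨_, fun j => ψ' (j + 1), h0, hf,
    { shells := shells_congr hsh h0 hf
      cont₀ := (hc 0).const_mul _
      cont := fun j => hc (j + 1)
      c1₀ := contDiffOn_const.mul (hd 0)
      c1 := fun j => hd (j + 1)
      density_le := ?_
      pot_two := D.pot_two hS hH
      pot_bdd := fun K hK hKU => (hb K hK hKU).imp fun C hC => hC.2
      grad_bdd := ?_
      upper := ?_
      pot_le := D.pot_le }⟩
  · intro x s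
    obtain ⟨N, hN⟩ := s.exists_nat_subset_range
    set F : Space → ℝ := fun y => max (∑ j ∈ Finset.range (N + 1), ψ' j y ^ 2) (n y)
    have hFc : Continuous F :=
      (continuous_finsetSum _ fun j _ => (hc j).pow 2).max hn.continuous
    have hFe : F = n := by
      refine (hFc.ae_eq_iff_eq volume hn.continuous).1 ?_
      filter_upwards [ae_all_iff.2 he, D.sum] with y h1 h2
      exact max_eq_right (by simp only [h1]; exact sum_le_hasSum _ (fun i _ => sq_nonneg _) h2)
    have hle : ∑ j ∈ Finset.range (N + 1), ψ' j x ^ 2 ≤ n x := by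
      rw [← congrFun hFe x]; exact le_max_left _ _
    refine le_trans ?_ hle
    rw [Finset.sum_range_succ' (fun j => ψ' j x ^ 2), mul_pow, inv_pow, hr2]
    have := Finset.sum_le_sum_of_subset_of_nonneg (f := fun j => ψ' (j + 1) x ^ 2) hN
      fun i _ _ => sq_nonneg _
    linarith
  · intro K hK hKU
    obtain ⟨C, hC, -⟩ := hb K hK hKU
    refine ⟨C, fun x hx a s => ?_⟩
    obtain ⟨N, hN⟩ := s.exists_nat_subset_range
    refine le_trans ?_ (hC x hx a (N + 1))
    have hd0 : DifferentiableAt ℝ (ψ' 0) x :=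
      ((hd 0).contDiffAt (hU.mem_nhds (hKU hx))).differentiableAt one_ne_zero
    rw [Finset.sum_range_succ' (fun j => deriv3 a (ψ' j) x ^ 2), deriv3_const_mul hd0, mul_pow,
      inv_pow, hr2]
    have := Finset.sum_le_sum_of_subset_of_nonneg (f := fun j => deriv3 a (ψ' (j + 1)) x ^ 2) hN
      fun i _ _ => sq_nonneg _
    have h2 := sq_nonneg (deriv3 a (ψ' 0) x)
    linarith
  · intro x hx
    obtain ⟨r, hr', hrU⟩ := Metric.nhds_basis_closedBall.mem_iff.1 (hU.mem_nhds hx)
    obtain ⟨C, -, hC⟩ := hb _ (isCompact_closedBall x r) hrU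
    exact ⟨C, r, hr', hC.mono fun y hy hyB =>
      (le_abs_self _).trans (hy (Metric.ball_subset_closedBall hyB))⟩

/-- Regularity of shell orbitals. -/
theorem regularity : RegularitySpec.RegularityStmt := regularity_of sobolev_six Yuk.hessTest

end Vale.Agent.P363
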