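import Vale.Agent.P363.KS.Move

/-!
P363: the unit of length does not matter: representability is scale invariant and the scaled
molecule gives a counterexample.
-/

noncomputable section

namespace Vale.Agent.P363

open MeasureTheory Filter Module
open scoped BigOperators Topology ENNReal

theorem memLp_comp_smul {p : ℝ≥0∞} {f : Space → ℝ} {c : ℝ} (hc : c ≠ 0) (hf : MemLp f p) :
    MemLp (fun x => f (c • x)) p := by
  have h : MemLp f p (Measure.map (fun x : Space => c • x) volume) := by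
    rw [Measure.map_addHaar_smul _ hc]
    exact hf.smul_measure ENNReal.ofReal_ne_top
  exact (memLp_map_measure_iff h.1 (measurable_const_smul c).aemeasurable).1 h

theorem InV.dilate {v : Space → ℝ} (hv : InV v) {c : ℝ} (hc : c ≠ 0) :
    InV fun x => c ^ 2 * v (c • x) := by
  obtain ⟨v₁, v₂, h₁, h₂, rfl⟩ := hv
  refine ⟨fun x => c ^ 2 * v₁ (c • x), fun x => c ^ 2 * v₂ (c • x),
    (memLp_comp_smul hc h₁).const_mul _, (memLp_comp_smul hc h₂).const_mul _, ?_⟩
  funext x; simp [mul_add]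

theorem scalePot_oneBody {n : ℕ} (c : ℝ) (v : Space → ℝ) :
    scalePot c (oneBody (n := n) v) = oneBody fun x => c ^ 2 * v (c • x) := by
  funext x; simp [scalePot, oneBody, Finset.mul_sum]

theorem density_scale {m : ℕ} {c : ℝ} (hc : 0 < c) (Φ : Spins (m + 1) → Cfg (m + 1) → ℂ)
    (r : Space) : density (scaleCfg c Φ) r = ENNReal.ofReal (c ^ 3) * density Φ (c • r) := by
  rw [← scaleCfg_eq, density_sim hc]; rfl

/-- `RepresentableScaleStmt`. -/
theorem representable_scale : FormSpec.RepresentableScaleStmt := by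
  intro m c ρ hc h
  obtain ⟨v, w, Φ, hv, hw, hΦ, hρ⟩ := h
  refine ⟨fun x => c ^ 2 * v (c • x), w, fun k => scaleCfg c (Φ k), hv.dilate hc.ne', hw,
    fun k => ?_, ?_⟩
  · have := ground_scale (m + 1) c _ _ hc (hΦ k)
    rwa [scalePot_oneBody] at this
  · filter_upwards [(Measure.quasiMeasurePreserving_smul (volume : Measure Space) hc.ne').ae hρ]
      with r hr
    rw [hr, ← ENNReal.tsum_mul_left]
    refine tsum_congr fun k => ?_
    rw [density_scale hc, mul_left_comm]

theorem scalePot_scaledMol {M n Z : ℕ} (R : Fin M → Space) (hZ : 1 ≤ Z) :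
    scalePot (Z : ℝ) (scaledMol (n := n) R (1 / (Z : ℝ))) =
      coulomb (fun j => (Z : ℝ)⁻¹ • R j) fun _ => Z := by
  have hZ' : (0 : ℝ) < Z := by exact_mod_cast hZ
  funext x
  have h1 : ∀ i j, 1 / ‖((Z : ℝ) • x) i - R j‖ =
      (Z : ℝ)⁻¹ * (1 / ‖x i - (Z : ℝ)⁻¹ • R j‖) := by
    intro i j
    have : ((Z : ℝ) • x) i - R j = (Z : ℝ) • (x i - (Z : ℝ)⁻¹ • R j) := by
      rw [smul_sub, smul_inv_smul₀ hZ'.ne']; rfl
    rw [this, norm_smul, Real.norm_eq_abs, abs_of_pos hZ']
    ring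
  have h2 : ∀ i k, 1 / ‖((Z : ℝ) • x) i - ((Z : ℝ) • x) k‖ =
      (Z : ℝ)⁻¹ * (1 / ‖x i - x k‖) := by
    intro i k
    rw [Pi.smul_apply, Pi.smul_apply, ← smul_sub, norm_smul, Real.norm_eq_abs, abs_of_pos hZ']
    ring
  simp only [scalePot, scaledMol, coulomb, h1, h2, ← Finset.mul_sum, div_eq_mul_one_div (Z : ℝ)]
  field_simp

/-- `ReductionStmt`. -/
theorem counterexample_reduction : FormSpec.ReductionStmt := by
  intro m M Z R Ψ hM hZ hR hΨ hnot
  have hZ' : (0 : ℝ) < Z := by exact_mod_cast hZ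
  refine ⟨m, M, fun j => (Z : ℝ)⁻¹ • R j, fun _ => Z, scaleCfg (Z : ℝ) Ψ, hM,
    fun a b h => hR (smul_right_injective Space (inv_ne_zero hZ'.ne') h), fun _ => hZ, ?_,
    fun hrep => hnot ?_⟩
  · have := ground_scale (m + 1) Z _ _ hZ' hΨ
    rwa [scalePot_scaledMol R hZ] at this
  · have := representable_scale m (Z : ℝ)⁻¹ _ (inv_pos.2 hZ') hrep
    convert this using 1
    funext r
    rw [density_scale hZ', smul_inv_smul₀ hZ'.ne', ← mul_assoc,
      ← ENNReal.ofReal_mul (by positivity), ← mul_pow, inv_mul_cancel₀ hZ'.ne', one_pow,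
      ENNReal.ofReal_one, one_mul]

end Vale.Agent.P363
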