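import Vale.Agent.P363.KS.FormSpec
import Vale.Agent.P363.Tool.Sobolev.Spec

/-!
P363: Lipschitz functions with compact support have weak derivatives, and so do their slices in
the position of one electron.
-/

noncomputable section

namespace Vale.Agent.P363

open MeasureTheory Filter
open scoped BigOperators Topology ENNReal

section general

variable {E F : Type*} [NormedAddCommGroup E] [NormedSpace ℝ E] [FiniteDimensional ℝ E]
  [MeasurableSpace E] [BorelSpace E] [NormedAddCommGroup F] [NormedSpace ℝ F]
  [FiniteDimensional ℝ F]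

omit [FiniteDimensional ℝ E] in
/-- The directional derivatives of a compactly supported Lipschitz function are in every `L^p`. -/
theorem memLp_fderiv_apply {μ : Measure E} [IsFiniteMeasureOnCompacts μ] {f : E → F} {K : NNReal}
    (hf : LipschitzWith K f) (hc : HasCompactSupport f) (v : E) (p : ℝ≥0∞) :
    MemLp (fun x => fderiv ℝ f x v) p μ := by
  borelize F
  have hmeas : AEStronglyMeasurable (fun x => fderiv ℝ f x v) μ :=
    ((measurable_fderiv_apply_const ℝ f v).stronglyMeasurable).aestronglyMeasurable
  have hS : MeasurableSet (tsupport f) := (isClosed_tsupport f).measurableSet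
  have hdom : MemLp ((tsupport f).indicator fun _ => ((K : ℝ) * ‖v‖)) p μ :=
    memLp_indicator_const p hS _ (Or.inr hc.isCompact.measure_lt_top.ne)
  refine hdom.mono hmeas (ae_of_all _ fun x => ?_)
  by_cases hx : x ∈ tsupport f
  · rw [Set.indicator_of_mem hx, Real.norm_of_nonneg (by positivity)]
    calc ‖fderiv ℝ f x v‖ ≤ ‖fderiv ℝ f x‖ * ‖v‖ := ContinuousLinearMap.le_opNorm _ _
      _ ≤ (K : ℝ) * ‖v‖ := by gcongr; exact norm_fderiv_le_of_lipschitz ℝ hf
  · rw [Set.indicator_of_notMem hx, norm_zero]
    have : fderiv ℝ f x = 0 := by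
      by_contra h
      exact hx (support_fderiv_subset ℝ h)
    simp [this]

/-- Integration by parts against a smooth compactly supported function. -/
theorem lip_ibp {μ : Measure E} [μ.IsAddHaarMeasure] {f : E → ℝ} {K : NNReal}
    (hf : LipschitzWith K f) {η : E → ℝ} (hη : ContDiff ℝ ((⊤ : ℕ∞) : WithTop ℕ∞) η)
    (hηc : HasCompactSupport η) (v : E) :
    ∫ x, f x * fderiv ℝ η x v ∂μ = -∫ x, fderiv ℝ f x v * η x ∂μ := by
  obtain ⟨D, hD⟩ := ContDiff.lipschitzWith_of_hasCompactSupport hηc hη (by simp)
  have h := LipschitzWith.integral_lineDeriv_mul_eq (μ := μ) hf hD hηc v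
  have hl : ∫ x, lineDeriv ℝ f x v * η x ∂μ = ∫ x, fderiv ℝ f x v * η x ∂μ := by
    refine integral_congr_ae ?_
    filter_upwards [hf.ae_differentiableAt] with x hx
    rw [hx.lineDeriv_eq_fderiv]
  rw [hl] at h
  rw [h, ← integral_neg]
  refine integral_congr_ae (ae_of_all _ fun x => ?_)
  simp [(hη.differentiable (by simp) x).lineDeriv_eq_fderiv, mul_comm]

/-- The same for complex valued functions. -/
theorem lip_ibp_complex {μ : Measure E} [μ.IsAddHaarMeasure] {f : E → ℂ} {K : NNReal}
    (hf : LipschitzWith K f) (hc : HasCompactSupport f) {η : E → ℝ}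
    (hη : ContDiff ℝ ((⊤ : ℕ∞) : WithTop ℕ∞) η)
    (hηc : HasCompactSupport η) (v : E) :
    ∫ x, f x * ((fderiv ℝ η x v : ℝ) : ℂ) ∂μ = -∫ x, fderiv ℝ f x v * ((η x : ℝ) : ℂ) ∂μ := by
  have h1 : Integrable (fun x => f x * ((fderiv ℝ η x v : ℝ) : ℂ)) μ :=
    (hf.continuous.mul (Complex.continuous_ofReal.comp
      ((hη.continuous_fderiv (by simp)).clm_apply continuous_const))).integrable_of_hasCompactSupport
      hc.mul_right
  have h2 : Integrable (fun x => fderiv ℝ f x v * ((η x : ℝ) : ℂ)) μ :=
    (memLp_fderiv_apply (μ := μ) hf hc v 2).integrable_mul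
      ((Complex.continuous_ofReal.comp hη.continuous).memLp_of_hasCompactSupport (p := 2)
        (hηc.comp_left (g := fun t : ℝ => (t : ℂ)) Complex.ofReal_zero))
  have hd : ∀ (L : ℂ →L[ℝ] ℝ), ∀ᵐ x ∂μ, fderiv ℝ (fun y => L (f y)) x v = L (fderiv ℝ f x v) := by
    intro L
    filter_upwards [hf.ae_differentiableAt] with x hx
    have := (L.hasFDerivAt.comp x hx.hasFDerivAt).fderiv
    rw [Function.comp_def] at this
    rw [this]; rfl
  apply Complex.ext
  · rw [Complex.neg_re, ← RCLike.re_eq_complex_re, ← integral_re h1, ← integral_re h2]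
    have := lip_ibp (μ := μ) (Complex.reCLM.lipschitz.comp hf) hη hηc v
    rw [Function.comp_def] at this
    simp only [RCLike.re_eq_complex_re, Complex.mul_re, Complex.ofReal_re, Complex.ofReal_im,
      mul_zero, sub_zero]
    simp only [Complex.reCLM_apply] at this
    rw [this]; congr 1
    refine integral_congr_ae ?_
    filter_upwards [hd Complex.reCLM] with x hx
    simp only [Complex.reCLM_apply] at hx
    rw [hx]
  · rw [Complex.neg_im, ← RCLike.im_eq_complex_im, ← integral_im h1, ← integral_im h2]
    have := lip_ibp (μ := μ) (Complex.imCLM.lipschitz.comp hf) hη hηc v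
    rw [Function.comp_def] at this
    simp only [RCLike.im_eq_complex_im, Complex.mul_im, Complex.ofReal_re, Complex.ofReal_im,
      mul_zero, zero_add]
    simp only [Complex.imCLM_apply] at this
    rw [this]; congr 1
    refine integral_congr_ae ?_
    filter_upwards [hd Complex.imCLM] with x hx
    simp only [Complex.imCLM_apply] at hx
    rw [hx]

end general

/-- A Lipschitz function with compact support on space is in `H¹`. -/
theorem isH1_of_lip {f : Space → ℝ} {K : NNReal} (hf : LipschitzWith K f)
    (hc : HasCompactSupport f) : IsH1 f fun a => deriv3 a f where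
  memLp := hf.continuous.memLp_of_hasCompactSupport hc
  grad_memLp a := memLp_fderiv_apply hf hc _ _
  weak := ⟨hf.continuous.locallyIntegrable.locallyIntegrableOn _,
    fun a => ((memLp_fderiv_apply (μ := volume) hf hc (unit3 a) 2).locallyIntegrable
      (by norm_num)).locallyIntegrableOn _,
    fun _ hη a => lip_ibp hf hη.smooth hη.compact (unit3 a)⟩

variable {k : ℕ}

/-- Integrals over `k + 1` positions as iterated integrals over position `i` and the others. -/
theorem integral_insertNth {G : Type*} [NormedAddCommGroup G] [NormedSpace ℝ G] (i : Fin (k + 1))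
    {g : Cfg (k + 1) → G} (hg : Integrable g) :
    ∫ x, g x = ∫ y : Cfg k, ∫ r : Space, g (i.insertNth r y) := by
  have h := ((volume_preserving_piFinSuccAbove (fun _ : Fin (k + 1) => Space) i).symm _)
  have hg' := (h.integrable_comp_emb (MeasurableEquiv.measurableEmbedding _)).2 hg
  rw [← h.integral_comp (MeasurableEquiv.measurableEmbedding _)]
  rw [Measure.volume_eq_prod]
  rw [integral_prod_symm]
  · rfl
  · exact hg'

/-- Almost every slice of an almost everywhere property. -/
theorem ae_slice (i : Fin (k + 1)) {p : Cfg (k + 1) → Prop} (h : ∀ᵐ x, p x) :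
    ∀ᵐ y : Cfg k, ∀ᵐ r : Space, p (i.insertNth r y) := by
  have he := ((volume_preserving_piFinSuccAbove (fun _ : Fin (k + 1) => Space) i).symm _)
  have h2 : ∀ᵐ z : Space × Cfg k, p (i.insertNth z.1 z.2) := by
    have := he.quasiMeasurePreserving.ae h
    exact this
  rw [Measure.volume_eq_prod] at h2
  exact Measure.ae_ae_of_ae_prod
    ((Measure.measurePreserving_swap (μ := (volume : Measure (Cfg k)))
      (ν := (volume : Measure Space))).quasiMeasurePreserving.ae h2)

/-- Slices of Lipschitz test functions are Lipschitz test functions. -/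
theorem slice_lip (i : Fin (k + 1)) {f : Cfg (k + 1) → ℂ} {K : NNReal}
    (hf : LipschitzWith K f) (hc : HasCompactSupport f) (y : Cfg k) :
    LipschitzWith K (fun r => f (i.insertNth r y)) ∧
      HasCompactSupport (fun r => f (i.insertNth r y)) := by
  refine ⟨?_, ?_⟩
  · have h1 : LipschitzWith 1 (fun r : Space => (i.insertNth r y : Cfg (k + 1))) := by
      refine LipschitzWith.of_dist_le_mul fun r r' => ?_
      rw [NNReal.coe_one, one_mul, dist_pi_le_iff dist_nonneg]
      intro j
      rcases Fin.eq_self_or_eq_succAbove i j with rfl | ⟨l, rfl⟩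
      · simp
      · simp
    simpa [Function.comp_def] using hf.comp h1
  · refine HasCompactSupport.of_support_subset_isCompact
      (hc.isCompact.image (continuous_apply i)) ?_
    intro r hr
    exact ⟨i.insertNth r y, subset_tsupport _ hr, Fin.insertNth_apply_same _ _ _⟩

/-- The derivative of a slice. -/
theorem fderiv_slice (i : Fin (k + 1)) {f : Cfg (k + 1) → ℂ} (r : Space) (y : Cfg k)
    (hd : DifferentiableAt ℝ f (i.insertNth r y)) (v : Space) :
    fderiv ℝ (fun r => f (i.insertNth r y)) r v =
      fderiv ℝ f (i.insertNth r y) (Pi.single i v) := by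
  have h1 : HasFDerivAt (fun r : Space => (i.insertNth r y : Cfg (k + 1)))
      (ContinuousLinearMap.single ℝ (fun _ => Space) i) r := by
    rw [hasFDerivAt_pi']
    intro j
    rcases Fin.eq_self_or_eq_succAbove i j with rfl | ⟨l, rfl⟩
    · simp only [Fin.insertNth_apply_same]
      refine (hasFDerivAt_id r).congr_fderiv ?_
      ext1 w; simp
    · simp only [Fin.insertNth_apply_succAbove]
      refine (hasFDerivAt_const (y l) r).congr_fderiv ?_
      ext1 w; simp [Fin.succAbove_ne]
  have := (hd.hasFDerivAt.comp r h1).fderiv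
  rw [Function.comp_def] at this
  rw [this]
  simp

end Vale.Agent.P363
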