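import Vale.Agent.P363.KS.StructureSpec
import Vale.Agent.P363.Tool.Weak.Local

/-!
P363: what `KS/Regularity` provides: the orbitals of a shell structure over a density with
locally square integrable Laplacian are continuous, and continuously differentiable where the
Laplacian is locally bounded; the potential is locally bounded there and bounded above by the
Laplacian of the square root of the density.
-/

noncomputable section

namespace Vale.Agent.P363

open MeasureTheory
open scoped BigOperators ENNReal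

/-- What the regularity of the orbitals needs from a density `n` with weak Laplacian `ln`. -/
structure DensityReg (P : Finset Space) (n ln : Space → ℝ) : Prop where
  continuous : Continuous n
  positive : ∀ x, 0 < n x
  poisson : WeakPoisson Set.univ n ln
  lap_two : LocMemLp 2 Set.univ ln
  lap_bdd : ∀ K, IsCompact K → K ⊆ (↑P : Set Space)ᶜ → ∃ C : ℝ, ∀ᵐ x, x ∈ K → |ln x| ≤ C

/-- Regular representatives of a shell structure. -/
structure RegularShells (P : Finset Space) (v φ₀ : Space → ℝ) (e₀ μ : ℝ) (f : ℕ → Space → ℝ)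
    (n ln : Space → ℝ) : Prop where
  shells : Shells v φ₀ e₀ μ f fun x => ENNReal.ofReal (n x)
  cont₀ : Continuous φ₀
  cont : ∀ j, Continuous (f j)
  c1₀ : ContDiffOn ℝ 1 φ₀ (↑P : Set Space)ᶜ
  c1 : ∀ j, ContDiffOn ℝ 1 (f j) (↑P : Set Space)ᶜ
  density_le : ∀ (x : Space) (s : Finset ℕ), 2 * φ₀ x ^ 2 + ∑ j ∈ s, f j x ^ 2 ≤ n x
  pot_two : LocMemLp 2 Set.univ v
  pot_bdd : ∀ K, IsCompact K → K ⊆ (↑P : Set Space)ᶜ → ∃ C : ℝ, ∀ᵐ x, x ∈ K → |v x| ≤ C
  grad_bdd : ∀ K, IsCompact K → K ⊆ (↑P : Set Space)ᶜ → ∃ C : ℝ, ∀ x ∈ K, ∀ (a : Fin 3)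
    (s : Finset ℕ), deriv3 a φ₀ x ^ 2 + ∑ j ∈ s, deriv3 a (f j) x ^ 2 ≤ C
  upper : Top.LocalUpper P v
  pot_le : ∀ gn : Fin 3 → Space → ℝ, HasWeakGrad Set.univ n gn →
    ∀ᵐ x, v x - μ ≤ ln x / (4 * n x) - (∑ a, gn a x ^ 2) / (8 * n x ^ 2)

namespace RegularitySpec

/-- A shell structure over a regular density has regular representatives. -/
def RegularityStmt : Prop :=
  ∀ (P : Finset Space) (v φ₀ : Space → ℝ) (e₀ μ : ℝ) (f : ℕ → Space → ℝ) (n ln : Space → ℝ),
    InV v → DensityReg P n ln → Shells v φ₀ e₀ μ f (fun x => ENNReal.ofReal (n x)) →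
    ∃ (φ₀' : Space → ℝ) (f' : ℕ → Space → ℝ), φ₀' =ᵐ[volume] φ₀ ∧
      (∀ j, f' j =ᵐ[volume] f j) ∧ RegularShells P v φ₀' e₀ μ f' n ln

end RegularitySpec

end Vale.Agent.P363
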