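import Vale.Agent.P363.Base

/-!
P363: vocabulary for quadratic forms, weak gradients on configuration space, the axial symmetry
group and scaling.
-/

noncomputable section

namespace Vale.Agent.P363

open MeasureTheory Filter
open scoped BigOperators Topology ComplexConjugate

variable {n : ℕ}

/-- Partial derivative of `f` in coordinate `a` of electron `i`. -/
def cfgDeriv (i : Fin n) (a : Fin 3) (f : Cfg n → ℂ) (x : Cfg n) : ℂ :=
  fderiv ℝ f x (Pi.single i (unit3 a))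

/-- A Lipschitz function with compact support. -/
def IsLipTest (f : Cfg n → ℂ) : Prop := (∃ K : NNReal, LipschitzWith K f) ∧ HasCompactSupport f

/-- `W` is infinitesimally form bounded with respect to the kinetic energy. -/
structure FormBounded (W : Cfg n → ℝ) : Prop where
  meas : AEStronglyMeasurable W
  integrable : ∀ f, IsLipTest f → Integrable fun x => W x * ‖f x‖ ^ 2
  bound : ∀ ε : ℝ, 0 < ε → ∃ C : ℝ, 0 ≤ C ∧ ∀ f, IsLipTest f →
    ∫ x, |W x| * ‖f x‖ ^ 2 ≤ ε * (∫ x, ∑ i, gradSq i f x) + C * ∫ x, ‖f x‖ ^ 2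

/-- `g` is the weak gradient of `f` on configuration space, both in `L²`. -/
structure HasCfgGrad (f : Cfg n → ℂ) (g : Fin n → Fin 3 → Cfg n → ℂ) : Prop where
  memLp : MemLp f 2
  memLp_grad : ∀ i a, MemLp (g i a) 2
  ibp : ∀ η : Cfg n → ℝ, ContDiff ℝ ((⊤ : ℕ∞) : WithTop ℕ∞) η → HasCompactSupport η →
    ∀ i a, ∫ x, f x * ((fderiv ℝ η x (Pi.single i (unit3 a)) : ℝ) : ℂ) =
      -∫ x, g i a x * ((η x : ℝ) : ℂ)

/-- The energy of a wave function with weak gradient `G`. -/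
def energyH (W : Cfg n → ℝ) (Ψ : Spins n → Cfg n → ℂ)
    (G : Spins n → Fin n → Fin 3 → Cfg n → ℂ) : ℝ :=
  ∑ s, ∫ x, ((1 / 2 : ℝ) * ∑ i, ∑ a, ‖G s i a x‖ ^ 2 + W x * ‖Ψ s x‖ ^ 2)

/-- A sequence of normalised tests converging to `Ψ` in the form norm. -/
structure FormApprox (W : Cfg n → ℝ) (Ψ : Spins n → Cfg n → ℂ)
    (G : Spins n → Fin n → Fin 3 → Cfg n → ℂ) (φ : ℕ → Spins n → Cfg n → ℂ) : Prop where
  test : ∀ k, IsTest (φ k) ∧ normSq (φ k) = 1
  value : ∀ s, Tendsto (fun k => ∫ x, ‖φ k s x - Ψ s x‖ ^ 2) atTop (𝓝 0)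
  grad : ∀ s i a,
    Tendsto (fun k => ∫ x, ‖cfgDeriv i a (φ k s) x - G s i a x‖ ^ 2) atTop (𝓝 0)
  pot : ∀ s, Tendsto (fun k => ∫ x, |W x| * ‖φ k s x - Ψ s x‖ ^ 2) atTop (𝓝 0)

/-- What a ground state of a form bounded potential satisfies in `H¹`. -/
structure GroundH1 (W : Cfg n → ℝ) (Ψ : Spins n → Cfg n → ℂ) (E : ℝ)
    (G : Spins n → Fin n → Fin 3 → Cfg n → ℂ) : Prop where
  lower : ∀ φ, IsTest φ → E * normSq φ ≤ energy W φ
  norm_one : normSq Ψ = 1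
  hasGrad : ∀ s, HasCfgGrad (Ψ s) (G s)
  integrable_pot : ∀ s, Integrable fun x => W x * ‖Ψ s x‖ ^ 2
  energy_eq : energyH W Ψ G = E
  antisymm : ∀ (p : Equiv.Perm (Fin n)) (s : Spins n),
    ∀ᵐ x : Cfg n, Ψ (s ∘ p) (x ∘ p) = ((Equiv.Perm.sign p : ℤ) : ℂ) * Ψ s x
  euler : ∀ φ, IsTest φ →
    ∑ s, ∫ x, ((1 / 2 : ℂ) * ∑ i, ∑ a, conj (cfgDeriv i a (φ s) x) * G s i a x +
      (W x : ℂ) * (conj (φ s x) * Ψ s x)) = (E : ℂ) * ∑ s, ∫ x, conj (φ s x) * Ψ s x
  approx : ∃ φ, FormApprox W Ψ G φ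

/-- Rotation by the angle `θ` about the axis `2`. -/
def rot (θ : ℝ) (x : Space) : Space :=
  !₂[Real.cos θ * x 0 - Real.sin θ * x 1, Real.sin θ * x 0 + Real.cos θ * x 1, x 2]

/-- Invariance under the rotations about the axis `2` and under the mirror. -/
def AxialSym {β : Type*} (f : Space → β) : Prop :=
  (∀ θ x, f (rot θ x) = f x) ∧ ∀ x, f (mirror x) = f x

/-- Almost everywhere invariance under the rotations about the axis `2` and the mirror. -/
def AxialSymAE {β : Type*} (f : Space → β) : Prop :=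
  (∀ θ, ∀ᵐ x : Space, f (rot θ x) = f x) ∧ ∀ᵐ x : Space, f (mirror x) = f x

/-- A wave function moved by an isometry of space. -/
def moveCfg (g : Space ≃ₗᵢ[ℝ] Space) (Ψ : Spins n → Cfg n → ℂ) : Spins n → Cfg n → ℂ :=
  fun s x => Ψ s fun i => g (x i)

/-- The norm preserving dilation of a wave function. -/
def scaleCfg (c : ℝ) (Ψ : Spins n → Cfg n → ℂ) : Spins n → Cfg n → ℂ :=
  fun s x => ((c ^ ((3 * n : ℝ) / 2) : ℝ) : ℂ) * Ψ s (c • x)

/-- The potential matching `scaleCfg`. -/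
def scalePot (c : ℝ) (W : Cfg n → ℝ) : Cfg n → ℝ :=
  fun x => c ^ 2 * W (c • x)

/-- The scaled molecule: unit nuclear charges, electronic repulsion of strength `g`. -/
def scaledMol {M : ℕ} (R : Fin M → Space) (g : ℝ) (x : Cfg n) : ℝ :=
  -∑ i, ∑ j, 1 / ‖x i - R j‖ + g * ∑ i, ∑ k ∈ Finset.Ioi i, 1 / ‖x i - x k‖

end Vale.Agent.P363
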