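import Vale.Agent.P363.KS.FormTest

/-!
P363: similarities of space, `x ↦ c • g x` with `g` a linear isometry, act on ground states.
-/

noncomputable section

namespace Vale.Agent.P363

open MeasureTheory Filter Module
open scoped BigOperators Topology ENNReal

variable {n : ℕ} {g : Space ≃ₗᵢ[ℝ] Space} {c : ℝ}

/-- The map on configurations. -/
def simMap (c : ℝ) (g : Space ≃ₗᵢ[ℝ] Space) (x : Cfg n) : Cfg n := fun i => c • g (x i)

/-- A wave function moved by a similarity, with the norm kept. -/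
def simCfg (c : ℝ) (g : Space ≃ₗᵢ[ℝ] Space) (Ψ : Spins n → Cfg n → ℂ) : Spins n → Cfg n → ℂ :=
  fun s x => ((c ^ ((3 * n : ℝ) / 2) : ℝ) : ℂ) * Ψ s (simMap c g x)

/-- The potential matching `simCfg`. -/
def simPot (c : ℝ) (g : Space ≃ₗᵢ[ℝ] Space) (W : Cfg n → ℝ) (x : Cfg n) : ℝ :=
  c ^ 2 * W (simMap c g x)

theorem moveCfg_eq (g : Space ≃ₗᵢ[ℝ] Space) (Ψ : Spins n → Cfg n → ℂ) :
    simCfg 1 g Ψ = moveCfg g Ψ := by
  funext s x; unfold simCfg moveCfg simMap; simp

theorem simPot_one (g : Space ≃ₗᵢ[ℝ] Space) (W : Cfg n → ℝ) :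
    simPot 1 g W = fun x => W fun i => g (x i) := by
  funext x; unfold simPot simMap; simp

theorem scaleCfg_eq (c : ℝ) (Ψ : Spins n → Cfg n → ℂ) :
    simCfg c (LinearIsometryEquiv.refl ℝ Space) Ψ = scaleCfg c Ψ := by
  funext s x; unfold simCfg scaleCfg simMap; simp [Pi.smul_def]

theorem scalePot_eq (c : ℝ) (W : Cfg n → ℝ) :
    simPot c (LinearIsometryEquiv.refl ℝ Space) W = scalePot c W := by
  funext x; unfold simPot scalePot simMap; simp [Pi.smul_def]

theorem finrank_cfg : finrank ℝ (Cfg n) = 3 * n := by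
  simp [finrank_pi_fintype, mul_comm]

theorem measurePreserving_map (g : Space ≃ₗᵢ[ℝ] Space) :
    MeasurePreserving (fun x : Cfg n => fun i => g (x i)) :=
  volume_preserving_pi fun _ => g.measurePreserving

/-- The map on configurations as a continuous linear map. -/
def simCLM (c : ℝ) (g : Space ≃ₗᵢ[ℝ] Space) : Cfg n →L[ℝ] Cfg n :=
  ContinuousLinearMap.pi fun i =>
    c • (g.toContinuousLinearEquiv.toContinuousLinearMap.comp (ContinuousLinearMap.proj i))

theorem simCLM_apply (x : Cfg n) : simCLM c g x = simMap c g x := by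
  ext i : 1; simp [simCLM, simMap]

theorem simMap_simMap (g h : Space ≃ₗᵢ[ℝ] Space) (a b : ℝ) (x : Cfg n) :
    simMap a g (simMap b h x) = simMap (a * b) (h.trans g) x := by
  funext i; simp [simMap, smul_smul]

theorem quasi_simMap (hc : 0 < c) :
    Measure.QuasiMeasurePreserving (simMap (n := n) c g) := by
  have h := (Measure.quasiMeasurePreserving_smul (volume : Measure (Cfg n)) hc.ne').comp
    (measurePreserving_map (n := n) g).quasiMeasurePreserving
  exact h

theorem integral_simMap {G : Type*} [NormedAddCommGroup G] [NormedSpace ℝ G] (hc : 0 < c)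
    (F : Cfg n → G) : ∫ x, F (simMap c g x) = (c ^ (3 * n))⁻¹ • ∫ x, F x := by
  have hemb : MeasurableEmbedding fun x : Cfg n => fun i => g (x i) :=
    (MeasurableEquiv.piCongrRight fun _ : Fin n => g.toMeasurableEquiv).measurableEmbedding
  have h1 : ∫ x, F (simMap c g x) = ∫ x : Cfg n, F (c • x) := by
    exact (measurePreserving_map (n := n) g).integral_comp hemb fun x => F (c • x)
  rw [h1, Measure.integral_comp_smul, finrank_cfg, abs_of_nonneg (by positivity)]

theorem rpow_half_sq (hc : 0 < c) : (c ^ ((3 * n : ℝ) / 2)) ^ 2 = c ^ (3 * n) := by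
  rw [← Real.rpow_natCast _ 2, ← Real.rpow_mul hc.le, ← Real.rpow_natCast c (3 * n)]
  congr 1; push_cast; ring

theorem normSq_sim (hc : 0 < c) (Ψ : Spins n → Cfg n → ℂ) :
    normSq (simCfg c g Ψ) = normSq Ψ := by
  refine Finset.sum_congr rfl fun s _ => ?_
  simp only [simCfg, norm_mul, mul_pow, Complex.norm_real, Real.norm_eq_abs, sq_abs,
    rpow_half_sq hc, integral_const_mul]
  rw [integral_simMap hc fun y => ‖Ψ s y‖ ^ 2, smul_eq_mul, ← mul_assoc,
    mul_inv_cancel₀ (by positivity), one_mul]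

theorem sum_sq_isometry (g : Space ≃ₗᵢ[ℝ] Space) (l : Space →L[ℝ] ℝ) :
    ∑ a, l (g (unit3 a)) ^ 2 = ∑ a, l (unit3 a) ^ 2 := by
  set u := (InnerProductSpace.toDual ℝ Space).symm l with hu
  have hl : ∀ w, l w = inner ℝ u w := fun w => by
    rw [hu, InnerProductSpace.toDual_symm_apply]
  have h1 := ((EuclideanSpace.basisFun (Fin 3) ℝ).map g).sum_sq_inner_left u
  have h2 := (EuclideanSpace.basisFun (Fin 3) ℝ).sum_sq_inner_left u
  simp only [OrthonormalBasis.map_apply, EuclideanSpace.basisFun_apply] at h1 h2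
  simp only [hl, unit3]
  rw [h1, h2]

theorem sum_normSq_isometry (g : Space ≃ₗᵢ[ℝ] Space) (L : Space →L[ℝ] ℂ) :
    ∑ a, ‖L (g (unit3 a))‖ ^ 2 = ∑ a, ‖L (unit3 a)‖ ^ 2 := by
  have h1 := sum_sq_isometry g (Complex.reCLM.comp L)
  have h2 := sum_sq_isometry g (Complex.imCLM.comp L)
  simp only [ContinuousLinearMap.comp_apply, Complex.reCLM_apply, Complex.imCLM_apply] at h1 h2
  simp only [Complex.sq_norm, Complex.normSq_apply, ← sq, Finset.sum_add_distrib, h1, h2]

theorem gradSq_sim (c : ℝ) (k : ℂ) (i : Fin n) {f : Cfg n → ℂ} {x : Cfg n}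
    (hd : DifferentiableAt ℝ f (simMap c g x)) :
    gradSq i (fun y => k * f (simMap c g y)) x =
      ‖k‖ ^ 2 * c ^ 2 * gradSq i f (simMap c g x) := by
  have hd' : DifferentiableAt ℝ f (simCLM c g x) := by rwa [simCLM_apply]
  have h1 := ((hd'.hasFDerivAt.comp x (simCLM c g).hasFDerivAt).const_mul k).fderiv
  simp only [Function.comp_def, simCLM_apply] at h1
  set L := fderiv ℝ f (simMap c g x) with hL
  have hs : ∀ a, simMap c g (Pi.single i (unit3 a)) = c • Pi.single i (g (unit3 a)) := by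
    intro a; funext j
    rcases eq_or_ne j i with rfl | h
    · simp [simMap]
    · simp [simMap, Pi.single_eq_of_ne h]
  have hv : ∀ a, ‖fderiv ℝ (fun y => k * f (simMap c g y)) x (Pi.single i (unit3 a))‖ ^ 2 =
      ‖k‖ ^ 2 * c ^ 2 * ‖L (Pi.single i (g (unit3 a)))‖ ^ 2 := by
    intro a
    rw [h1]
    simp only [smul_apply, ContinuousLinearMap.comp_apply, simCLM_apply, hs,
      map_smul, norm_smul, Real.norm_eq_abs, mul_pow, sq_abs, smul_eq_mul, norm_mul]
    ring
  have key := sum_normSq_isometry g (L.comp (ContinuousLinearMap.single ℝ (fun _ => Space) i))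
  simp only [ContinuousLinearMap.comp_apply, ContinuousLinearMap.single_apply] at key
  show ∑ a, ‖fderiv ℝ (fun y => k * f (simMap c g y)) x (Pi.single i (unit3 a))‖ ^ 2 = _
  simp only [hv, ← Finset.mul_sum, key]
  rfl

theorem energy_sim (hc : 0 < c) (W : Cfg n → ℝ) {φ : Spins n → Cfg n → ℂ} (hφ : IsTest φ) :
    energy (simPot c g W) (simCfg c g φ) = c ^ 2 * energy W φ := by
  simp only [energy, Finset.mul_sum (a := c ^ 2)]
  refine Finset.sum_congr rfl fun s _ => ?_
  obtain ⟨K, hK⟩ := hφ.lipschitz s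
  have hpt : (fun x => (1 / 2 : ℝ) * ∑ i, gradSq i (simCfg c g φ s) x +
      simPot c g W x * ‖simCfg c g φ s x‖ ^ 2) =ᵐ[volume] fun x => c ^ (3 * n) * c ^ 2 *
      (fun y => (1 / 2 : ℝ) * ∑ i, gradSq i (φ s) y + W y * ‖φ s y‖ ^ 2) (simMap c g x) := by
    filter_upwards [(quasi_simMap (g := g) hc).ae hK.ae_differentiableAt] with x hx
    unfold simCfg
    simp only [gradSq_sim c _ _ hx, simPot, norm_mul, mul_pow, Complex.norm_real, Real.norm_eq_abs,
      sq_abs, rpow_half_sq hc, ← Finset.mul_sum]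
    ring
  rw [integral_congr_ae hpt, integral_const_mul,
    integral_simMap hc fun y => (1 / 2 : ℝ) * ∑ i, gradSq i (φ s) y + W y * ‖φ s y‖ ^ 2,
    smul_eq_mul]
  have : c ^ (3 * n) ≠ 0 := by positivity
  field_simp

theorem IsTest.sim {φ : Spins n → Cfg n → ℂ} (hφ : IsTest φ) (hc : 0 < c)
    (g : Space ≃ₗᵢ[ℝ] Space) : IsTest (simCfg c g φ) := by
  refine ⟨fun s => ?_, fun s => ?_, fun p s x => ?_⟩
  · obtain ⟨K, hK⟩ := hφ.lipschitz s
    refine ⟨‖(((c ^ ((3 * n : ℝ) / 2) : ℝ)) : ℂ)‖₊ * (K * ‖simCLM (n := n) c g‖₊),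
      LipschitzWith.of_dist_le_mul fun x y => ?_⟩
    have := (hK.comp (simCLM c g).lipschitz).dist_le_mul x y
    simp only [Function.comp_apply, simCLM_apply] at this
    unfold simCfg
    rw [dist_eq_norm, ← mul_sub, norm_mul, ← dist_eq_norm, NNReal.coe_mul, coe_nnnorm,
      mul_assoc]
    exact mul_le_mul_of_nonneg_left this (norm_nonneg _)
  · refine HasCompactSupport.of_support_subset_isCompact ((hφ.compact s).isCompact.image
      (simCLM c⁻¹ g.symm).continuous) fun x hx => ⟨simMap c g x, subset_tsupport _ ?_, ?_⟩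
    · exact right_ne_zero_of_mul hx
    · rw [simCLM_apply, simMap_simMap]
      funext i
      simp [simMap, hc.ne']
  · simp only [simCfg]
    rw [show simMap c g (x ∘ ⇑p) = simMap c g x ∘ ⇑p from rfl, hφ.antisymm]
    ring

/-- Similarities move ground states. -/
theorem ground_sim {W : Cfg n → ℝ} {Ψ : Spins n → Cfg n → ℂ} (hc : 0 < c)
    (g : Space ≃ₗᵢ[ℝ] Space) (hΨ : IsGroundState W Ψ) :
    IsGroundState (simPot c g W) (simCfg c g Ψ) := by
  obtain ⟨hmem, E, hlow, φ, ht, hen, hval⟩ := hΨ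
  refine ⟨fun s => ?_, c ^ 2 * E, fun ψ hψ hn => ?_, fun k => simCfg c g (φ k),
    fun k => ⟨(ht k).1.sim hc g, (normSq_sim hc _).trans (ht k).2⟩, ?_, fun s => ?_⟩
  · refine MemLp.const_mul ?_ _
    have hmeas := (hmem s).1.comp_quasiMeasurePreserving (quasi_simMap (g := g) hc)
    refine (memLp_two_iff_integrable_sq_norm hmeas).2 ?_
    have h1 := (memLp_two_iff_integrable_sq_norm (hmem s).1).1 (hmem s)
    have h2 := (integrable_comp_smul_iff volume _ hc.ne').2 h1
    exact ((measurePreserving_map (n := n) g).integrable_comp_emb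
      (MeasurableEquiv.piCongrRight fun _ : Fin n => g.toMeasurableEquiv).measurableEmbedding).2 h2
  · set ψ' := simCfg c⁻¹ g.symm ψ with hψ'
    have hb : simCfg c g ψ' = ψ := by
      funext s x
      simp only [hψ', simCfg, simMap_simMap, ← mul_assoc, ← Complex.ofReal_mul,
        ← Real.mul_rpow hc.le (inv_nonneg.2 hc.le), inv_mul_cancel₀ hc.ne', mul_inv_cancel₀ hc.ne',
        Real.one_rpow, Complex.ofReal_one, one_mul]
      congr 1
      funext i; simp [simMap]
    have ht' : IsTest ψ' := hψ.sim (inv_pos.2 hc) g.symm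
    have hn' : normSq ψ' = 1 := (normSq_sim (inv_pos.2 hc) _).trans hn
    calc c ^ 2 * E ≤ c ^ 2 * energy W ψ' := by gcongr; exact hlow _ ht' hn'
      _ = energy (simPot c g W) ψ := by rw [← energy_sim hc W ht', hb]
  · simpa only [energy_sim hc W (ht _).1] using hen.const_mul (c ^ 2)
  · refine (hval s).congr fun k => ?_
    simp only [simCfg, ← mul_sub, norm_mul, mul_pow, Complex.norm_real, Real.norm_eq_abs, sq_abs,
      rpow_half_sq hc, integral_const_mul]
    rw [integral_simMap hc fun y => ‖φ k s y - Ψ s y‖ ^ 2, smul_eq_mul, ← mul_assoc,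
      mul_inv_cancel₀ (by positivity), one_mul]

/-- `MoveStmt`. -/
theorem ground_move : FormSpec.MoveStmt := by
  intro n g W Ψ h
  have := ground_sim (c := 1) one_pos g h
  rwa [moveCfg_eq, simPot_one] at this

/-- `ScaleStmt`. -/
theorem ground_scale : FormSpec.ScaleStmt := by
  intro n c W Ψ hc h
  have := ground_sim hc (LinearIsometryEquiv.refl ℝ Space) h
  rwa [scaleCfg_eq, scalePot_eq] at this

theorem lintegral_simMap (hc : 0 < c) (F : Cfg n → ℝ≥0∞) :
    ∫⁻ x, F (simMap c g x) = ENNReal.ofReal (c ^ (3 * n))⁻¹ * ∫⁻ x, F x := by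
  have hemb : MeasurableEmbedding fun x : Cfg n => fun i => g (x i) :=
    (MeasurableEquiv.piCongrRight fun _ : Fin n => g.toMeasurableEquiv).measurableEmbedding
  have h1 : ∫⁻ x, F (simMap c g x) = ∫⁻ x : Cfg n, F (c • x) :=
    (measurePreserving_map (n := n) g).lintegral_comp_emb hemb fun x => F (c • x)
  have he : MeasurableEmbedding fun x : Cfg n => c • x :=
    (MeasurableEquiv.smul₀ c hc.ne').measurableEmbedding
  rw [h1, ← he.lintegral_map, Measure.map_addHaar_smul _ hc.ne', lintegral_smul_measure,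
    finrank_cfg, abs_of_nonneg (by positivity), smul_eq_mul]

/-- The density of a moved wave function. -/
theorem density_sim {m : ℕ} (hc : 0 < c) (g : Space ≃ₗᵢ[ℝ] Space)
    (Φ : Spins (m + 1) → Cfg (m + 1) → ℂ) (r : Space) :
    density (simCfg c g Φ) r = ENNReal.ofReal (c ^ 3) * density Φ (c • g r) := by
  simp only [density, Finset.mul_sum]
  refine Finset.sum_congr rfl fun i _ => Finset.sum_congr rfl fun s _ => ?_
  have hins : ∀ y : Cfg m, simMap c g (i.insertNth r y) =
      i.insertNth (c • g r) (simMap c g y) := by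
    intro y; funext j
    rcases Fin.eq_self_or_eq_succAbove i j with rfl | ⟨l, rfl⟩ <;> simp [simMap]
  have hk : ‖(((c ^ ((3 * ((m + 1 : ℕ) : ℝ)) / 2) : ℝ)) : ℂ)‖ₑ ^ 2 =
      ENNReal.ofReal (c ^ (3 * (m + 1))) := by
    rw [← ofReal_norm, ← ENNReal.ofReal_pow (norm_nonneg _), Complex.norm_real, Real.norm_eq_abs,
      sq_abs, rpow_half_sq hc]
  simp only [simCfg, enorm_mul, mul_pow, hins, hk]
  rw [lintegral_const_mul' _ _ ENNReal.ofReal_ne_top,
    lintegral_simMap hc fun y => ‖Φ s (i.insertNth (c • g r) y)‖ₑ ^ 2, ← mul_assoc,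
    ← ENNReal.ofReal_mul (by positivity)]
  congr 2
  rw [mul_add, pow_add]; field_simp

end Vale.Agent.P363
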