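import Vale.Agent.P363.KS.FormGround
import Vale.Agent.P363.KS.AxialAvg

/-!
P363: the potential energy of a wave function as a pairing with its density.
-/

noncomputable section

namespace Vale.Agent.P363

open MeasureTheory Filter
open scoped BigOperators Topology ENNReal

variable {m : ℕ}

theorem inV_of_le {f a : Space → ℝ} {B : ℝ} (hf : Measurable f) (hB : 0 ≤ B)
    (ha : MemLp a (3 / 2)) (h : ∀ᵐ x, |f x| ≤ |a x| + B) : InV f := by
  refine ⟨fun x => f x - max (-B) (min B (f x)), fun x => max (-B) (min B (f x)), ?_, ?_, ?_⟩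
  · refine ha.abs.of_le ((hf.sub (measurable_const.max
      (measurable_const.min hf))).aestronglyMeasurable) ?_
    filter_upwards [h] with x hx
    simp only [Real.norm_eq_abs, Pi.abs_apply, abs_abs]
    rw [abs_le] at hx ⊢
    have := abs_nonneg (a x)
    rcases max_cases (-B) (min B (f x)) with ⟨h1, h2⟩ | ⟨h1, h2⟩ <;>
      rcases min_cases B (f x) with ⟨h3, h4⟩ | ⟨h3, h4⟩ <;> constructor <;> linarith [hx.1, hx.2]
  · refine memLp_top_of_bound
      (measurable_const.max (measurable_const.min hf)).aestronglyMeasurable B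
      (ae_of_all _ fun x => ?_)
    simp only [Real.norm_eq_abs, abs_le]
    exact ⟨le_max_left _ _, max_le (by linarith) (min_le_left _ _)⟩
  · funext x; simp

/-- The pairing of a nonnegative one-body potential with a wave function. -/
def potL (f : Space → ℝ≥0∞) (Ψ : Spins (m + 1) → Cfg (m + 1) → ℂ) : ℝ≥0∞ :=
  ∑ s, ∫⁻ x, (∑ i, f (x i)) * ‖Ψ s x‖ₑ ^ 2

theorem aemeasurable_slice_sq (i : Fin (m + 1)) {Ψ : Cfg (m + 1) → ℂ}
    (hΨ : AEStronglyMeasurable Ψ) :
    AEMeasurable (fun z : Space × Cfg m => ‖Ψ (i.insertNth z.1 z.2)‖ₑ ^ 2)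
      ((volume : Measure Space).prod (volume : Measure (Cfg m))) := by
  have he := ((volume_preserving_piFinSuccAbove (fun _ : Fin (m + 1) => Space) i).symm _)
  have := (hΨ.enorm.pow_const 2).comp_quasiMeasurePreserving he.quasiMeasurePreserving
  rw [Measure.volume_eq_prod] at this
  exact this

theorem aemeasurable_density {Ψ : Spins (m + 1) → Cfg (m + 1) → ℂ}
    (hΨ : ∀ s, AEStronglyMeasurable (Ψ s)) : AEMeasurable (density Ψ) :=
  Finset.aemeasurable_fun_sum _ fun i _ => Finset.aemeasurable_fun_sum _ fun s _ =>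
    (aemeasurable_slice_sq i (hΨ s)).lintegral_prod_right'

theorem lintegral_density {f : Space → ℝ≥0∞} (hf : Measurable f)
    {Ψ : Spins (m + 1) → Cfg (m + 1) → ℂ} (hΨ : ∀ s, AEStronglyMeasurable (Ψ s)) :
    ∫⁻ r, f r * density Ψ r = potL f Ψ := by
  have h1 : ∀ s, ∫⁻ x, (∑ i, f (x i)) * ‖Ψ s x‖ₑ ^ 2 =
      ∑ i, ∫⁻ x : Cfg (m + 1), f (x i) * ‖Ψ s x‖ₑ ^ 2 := by
    intro s
    simp only [Finset.sum_mul]
    exact lintegral_finsetSum' _ fun i _ =>
      (hf.comp (measurable_pi_apply i)).aemeasurable.mul ((hΨ s).enorm.pow_const 2)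
  have h2 : ∀ i s, ∫⁻ x : Cfg (m + 1), f (x i) * ‖Ψ s x‖ₑ ^ 2 =
      ∫⁻ r, f r * ∫⁻ y : Cfg m, ‖Ψ s (i.insertNth r y)‖ₑ ^ 2 := by
    intro i s
    have he := ((volume_preserving_piFinSuccAbove (fun _ : Fin (m + 1) => Space) i).symm _)
    rw [← he.lintegral_comp_emb (MeasurableEquiv.measurableEmbedding _)]
    rw [Measure.volume_eq_prod, lintegral_prod]
    · refine lintegral_congr_ae ?_
      filter_upwards [(aemeasurable_slice_sq i (hΨ s)).aestronglyMeasurable.prodMk_left] with r hr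
      rw [← lintegral_const_mul'' (f r) hr.aemeasurable]
      refine lintegral_congr fun y => ?_
      show f ((i.insertNth r y : Cfg (m + 1)) i) * _ = _
      rw [Fin.insertNth_apply_same]
      rfl
    · exact ((hf.comp measurable_fst).aemeasurable).mul (aemeasurable_slice_sq i (hΨ s)) |>.congr
        (ae_of_all _ fun z => by
          show f z.1 * _ = f ((i.insertNth z.1 z.2 : Cfg (m + 1)) i) * _
          rw [Fin.insertNth_apply_same]; rfl)
  simp only [potL, h1, h2, density, Finset.mul_sum]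
  rw [lintegral_finsetSum']
  · rw [Finset.sum_comm]
    refine Finset.sum_congr rfl fun i _ => ?_
    rw [lintegral_finsetSum']
    exact fun s _ => hf.aemeasurable.mul (aemeasurable_slice_sq i (hΨ s)).lintegral_prod_right'
  · exact fun i _ => Finset.aemeasurable_fun_sum _ fun s _ =>
      hf.aemeasurable.mul (aemeasurable_slice_sq i (hΨ s)).lintegral_prod_right'

variable {Ψ : Spins (m + 1) → Cfg (m + 1) → ℂ}

theorem potL_congr {f g : Space → ℝ≥0∞} (h : f =ᵐ[volume] g) : potL f Ψ = potL g Ψ := by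
  refine Finset.sum_congr rfl fun s _ => lintegral_congr_ae ?_
  filter_upwards [ae_all_iff.2 fun i : Fin (m + 1) =>
    (Measure.quasiMeasurePreserving_eval (fun _ : Fin (m + 1) => (volume : Measure Space))
      i).ae h] with x hx
  simp only [Function.eval] at hx
  simp only [hx]

theorem potL_comp_axMap {f : Space → ℝ≥0∞} (hf : Measurable f)
    (hΨ : ∀ s, AEStronglyMeasurable (Ψ s)) :
    potL (axAvg f) Ψ = ∫⁻ p, potL (fun x => f (axMap p.1 p.2 x)) Ψ ∂axMeas := by
  have hm : ∀ p : Bool × ℝ, Measurable fun x => f (axMap p.1 p.2 x) := fun p =>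
    hf.comp (measurable_axMap.comp (measurable_const.prodMk measurable_id))
  have hmul : ∀ x, axAvg f x * density Ψ x =
      ∫⁻ p, f (axMap p.1 p.2 x) * density Ψ x ∂axMeas := fun x =>
    (lintegral_mul_const _ (hf.comp (measurable_axMap.comp
      (measurable_id.prodMk measurable_const)))).symm
  have hjoint : AEMeasurable
      (Function.uncurry fun (x : Space) (p : Bool × ℝ) => f (axMap p.1 p.2 x) * density Ψ x)
      ((volume : Measure Space).prod axMeas) :=
    ((hf.comp (measurable_axMap.comp measurable_swap)).aemeasurable).mul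
      (aemeasurable_density hΨ).comp_fst
  rw [← lintegral_density (measurable_axAvg hf) hΨ]
  simp only [hmul]
  rw [lintegral_lintegral_swap hjoint]
  exact lintegral_congr fun p => lintegral_density (hm p) hΨ

variable {G : Spins (m + 1) → Fin (m + 1) → Fin 3 → Cfg (m + 1) → ℂ}

/-- The kinetic energy. -/
def kinH {n : ℕ} (G : Spins n → Fin n → Fin 3 → Cfg n → ℂ) : ℝ :=
  ∑ s, ∫ x, (1 / 2 : ℝ) * ∑ i, ∑ a, ‖G s i a x‖ ^ 2

theorem integrable_pot {n : ℕ} {W : Cfg n → ℝ} {φ : Spins n → Cfg n → ℂ}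
    {dφ : Spins n → Fin n → Fin 3 → Cfg n → ℂ} (hW : AEStronglyMeasurable W)
    (h : FormData W φ dφ) (s : Spins n) : Integrable fun x => W x * ‖φ s x‖ ^ 2 := by
  refine ((integrable_pot_cross hW h h s).re).congr (ae_of_all _ fun x => ?_)
  simp [Complex.conj_mul', ← Complex.ofReal_pow]

theorem energyH_split {n : ℕ} {W : Cfg n → ℝ} {φ : Spins n → Cfg n → ℂ}
    {dφ : Spins n → Fin n → Fin 3 → Cfg n → ℂ} (hW : AEStronglyMeasurable W)
    (h : FormData W φ dφ) :
    energyH W φ dφ = kinH dφ + ∑ s, ∫ x, W x * ‖φ s x‖ ^ 2 := by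
  rw [kinH, ← Finset.sum_add_distrib]
  refine Finset.sum_congr rfl fun s _ => ?_
  exact integral_add ((integrable_finsetSum _ fun i _ => integrable_finsetSum _ fun a _ =>
    (h.grad s i a).integrable_norm_pow two_ne_zero).const_mul _) (integrable_pot hW h s)

theorem potL_ofReal {h : Space → ℝ} (h0 : ∀ x, 0 ≤ h x)
    (hW : AEStronglyMeasurable (oneBody (n := m + 1) h)) (hd : FormData (oneBody h) Ψ G) :
    potL (fun x => ENNReal.ofReal (h x)) Ψ =
      ENNReal.ofReal (∑ s, ∫ x, oneBody h x * ‖Ψ s x‖ ^ 2) := by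
  have hnn : ∀ x : Cfg (m + 1), 0 ≤ oneBody h x := fun x => Finset.sum_nonneg fun i _ => h0 _
  rw [ENNReal.ofReal_sum_of_nonneg fun s _ =>
    integral_nonneg fun x => mul_nonneg (hnn x) (sq_nonneg _)]
  refine Finset.sum_congr rfl fun s _ => ?_
  rw [ofReal_integral_eq_lintegral_ofReal (integrable_pot hW hd s)
    (ae_of_all _ fun x => mul_nonneg (hnn x) (sq_nonneg _))]
  refine lintegral_congr fun x => ?_
  rw [ENNReal.ofReal_mul (hnn x), oneBody, ENNReal.ofReal_sum_of_nonneg fun i _ => h0 _,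
    ENNReal.ofReal_pow (norm_nonneg _), ofReal_norm]

theorem potL_ofReal_ne_top {h : Space → ℝ} (h0 : ∀ x, 0 ≤ h x)
    (hW : AEStronglyMeasurable (oneBody (n := m + 1) h)) (hd : FormData (oneBody h) Ψ G) :
    potL (fun x => ENNReal.ofReal (h x)) Ψ ≠ ∞ := by
  rw [potL_ofReal h0 hW hd]; exact ENNReal.ofReal_ne_top

/-- The energy in a difference of two nonnegative potentials. -/
theorem energyH_sub {v a b : Space → ℝ} (hv : v =ᵐ[volume] fun x => a x - b x)
    (ha0 : ∀ x, 0 ≤ a x) (hb0 : ∀ x, 0 ≤ b x)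
    (hv' : AEStronglyMeasurable (oneBody (n := m + 1) v))
    (ha : AEStronglyMeasurable (oneBody (n := m + 1) a))
    (hb : AEStronglyMeasurable (oneBody (n := m + 1) b))
    (hdv : FormData (oneBody v) Ψ G) (hda : FormData (oneBody a) Ψ G)
    (hdb : FormData (oneBody b) Ψ G) :
    energyH (oneBody v) Ψ G = kinH G + (potL (fun x => ENNReal.ofReal (a x)) Ψ).toReal -
      (potL (fun x => ENNReal.ofReal (b x)) Ψ).toReal := by
  have hnn : ∀ (h : Space → ℝ), (∀ x, 0 ≤ h x) →
      0 ≤ ∑ s, ∫ x : Cfg (m + 1), oneBody h x * ‖Ψ s x‖ ^ 2 := fun h h0 =>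
    Finset.sum_nonneg fun s _ => integral_nonneg fun x =>
      mul_nonneg (Finset.sum_nonneg fun i _ => h0 _) (sq_nonneg _)
  rw [energyH_split hv' hdv, potL_ofReal ha0 ha hda, potL_ofReal hb0 hb hdb,
    ENNReal.toReal_ofReal (hnn a ha0), ENNReal.toReal_ofReal (hnn b hb0), add_sub_assoc,
    ← Finset.sum_sub_distrib]
  congr 1
  refine Finset.sum_congr rfl fun s _ => ?_
  rw [← integral_sub (integrable_pot ha hda s) (integrable_pot hb hdb s)]
  refine integral_congr_ae ?_
  filter_upwards [ae_all_iff.2 fun i : Fin (m + 1) =>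
    (Measure.quasiMeasurePreserving_eval (fun _ : Fin (m + 1) => (volume : Measure Space))
      i).ae hv] with x hx
  simp only [Function.eval] at hx
  simp only [oneBody, hx, Finset.sum_sub_distrib, sub_mul]

/-- A sequence of tests converging in one form norm converges in every form norm. -/
theorem TendstoForm.change {n : ℕ} {W W' : Cfg n → ℝ} {φs : ℕ → Spins n → Cfg n → ℂ}
    {Ψ : Spins n → Cfg n → ℂ} {G : Spins n → Fin n → Fin 3 → Cfg n → ℂ}
    (h : TendstoForm W φs Ψ G) (hW' : FormBounded W') : TendstoForm W' φs Ψ G := by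
  obtain ⟨C, hC, hb⟩ := hW'.bound 1 one_pos
  set Q : Spins n → ℕ → ℝ := fun s k =>
    (∑ i, ∑ a, ∫ x, ‖cfgDeriv i a (φs k s) x - G s i a x‖ ^ 2) + C * ∫ x, ‖φs k s x - Ψ s x‖ ^ 2
    with hQ
  have hQ0 : ∀ s, Tendsto (Q s) atTop (𝓝 0) := by
    intro s
    simpa [hQ] using (tendsto_finsetSum (Finset.univ : Finset (Fin n)) fun i _ =>
      tendsto_finsetSum (Finset.univ : Finset (Fin 3)) fun a _ => h.grad s i a).add
        ((h.value s).const_mul C)
  have half : ∀ (f g : Cfg n → ℂ) (u : Cfg n → ℂ), MemLp f 2 → MemLp g 2 → MemLp u 2 →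
      ∫ x, ‖f x - g x‖ ^ 2 ≤ 2 * (∫ x, ‖f x - u x‖ ^ 2) + 2 * ∫ x, ‖g x - u x‖ ^ 2 := by
    intro f g u hf hg hu
    have ia := ((hf.sub hu).integrable_norm_pow two_ne_zero).const_mul (2 : ℝ)
    have ib := ((hg.sub hu).integrable_norm_pow two_ne_zero).const_mul (2 : ℝ)
    simp only [Pi.sub_apply] at ia ib
    rw [← integral_const_mul, ← integral_const_mul, ← integral_add ia ib]
    refine integral_mono ((hf.sub hg).integrable_norm_pow two_ne_zero) (ia.add ib) fun x => ?_
    have := norm_sub_le (f x - u x) (g x - u x)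
    rw [sub_sub_sub_cancel_right] at this
    nlinarith [sq_nonneg (‖f x - u x‖ - ‖g x - u x‖), norm_nonneg (f x - g x)]
  have hpot : ∀ s, ∃ p, MemLp p 2 ∧
      Tendsto (fun k => ∫ x, ‖Vale.Agent.P363.potA W' x * φs k s x - p x‖ ^ 2) atTop (𝓝 0) := by
    intro s
    refine exists_l2_limit (fun k => ((h.test k).formData hW').pot s) fun ε hε => ?_
    obtain ⟨K, hK⟩ := eventually_atTop.1 ((hQ0 s).eventually
      (gt_mem_nhds (show (0 : ℝ) < ε / 4 by positivity)))
    refine ⟨K, fun k hk l hl => ?_⟩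
    have hd := (h.test k).add ((h.test l).const_mul (-1))
    have e1 : ∫ x, ‖Vale.Agent.P363.potA W' x * φs k s x -
        Vale.Agent.P363.potA W' x * φs l s x‖ ^ 2 =
        ∫ x, |W' x| * ‖φs k s x + (-1 : ℂ) * φs l s x‖ ^ 2 := by
      simp only [← mul_sub, norm_mul, mul_pow, norm_potA_sq, neg_one_mul, ← sub_eq_add_neg]
    have e2 : ∫ x, ∑ i, gradSq i (fun x => φs k s x + (-1 : ℂ) * φs l s x) x =
        ∑ i, ∑ a, ∫ x, ‖cfgDeriv i a (φs k s) x - cfgDeriv i a (φs l s) x‖ ^ 2 := by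
      have hI : ∀ i a, Integrable fun x =>
          ‖cfgDeriv i a (φs k s) x - cfgDeriv i a (φs l s) x‖ ^ 2 := fun i a =>
        (((h.test k).memLp_deriv s i a).sub
          ((h.test l).memLp_deriv s i a)).integrable_norm_pow two_ne_zero
      simp_rw [← integral_finsetSum (Finset.univ : Finset (Fin 3)) fun a _ => hI _ a]
      rw [← integral_finsetSum _ fun i _ => integrable_finsetSum _ fun a _ => hI i a]
      refine integral_congr_ae ?_
      filter_upwards [(h.test k).cfgDeriv_add_mul (h.test l) (-1) s] with x hx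
      refine Finset.sum_congr rfl fun i _ => Finset.sum_congr rfl fun a _ => ?_
      show ‖cfgDeriv i a (fun x => φs k s x + (-1 : ℂ) * φs l s x) x‖ ^ 2 = _
      rw [hx i a]
      simp [sub_eq_add_neg]
    have e3 : ∫ x, ‖φs k s x + (-1 : ℂ) * φs l s x‖ ^ 2 = ∫ x, ‖φs k s x - φs l s x‖ ^ 2 := by
      simp only [neg_one_mul, ← sub_eq_add_neg]
    have b1 := hb _ (hd.lipTest s)
    rw [e2, e3, one_mul] at b1
    have b2 := Finset.sum_le_sum fun i (_ : i ∈ Finset.univ) => Finset.sum_le_sum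
      fun a (_ : a ∈ Finset.univ) => half _ _ _ ((h.test k).memLp_deriv s i a)
        ((h.test l).memLp_deriv s i a) (h.data.grad s i a)
    have b3 := mul_le_mul_of_nonneg_left
      (half _ _ _ ((h.test k).memLp s) ((h.test l).memLp s) (h.data.val s)) hC
    simp only [Finset.sum_add_distrib, ← Finset.mul_sum] at b2
    have q1 := hK k hk
    have q2 := hK l hl
    simp only [hQ] at q1 q2
    rw [e1]
    linarith
  choose p hp hpt using hpot
  have hpe : ∀ s, p s =ᵐ[volume] fun x => Vale.Agent.P363.potA W' x * Ψ s x := by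
    intro s
    obtain ⟨σ, hσ, h1⟩ := exists_subseq_ae (fun k => (h.test k).memLp s) (h.data.val s)
      (h.value s)
    obtain ⟨τ, hτ, h2⟩ := exists_subseq_ae (fun k => ((h.test (σ k)).formData hW').pot s) (hp s)
      ((hpt s).comp hσ.tendsto_atTop)
    filter_upwards [h1, h2] with x hx hx'
    exact tendsto_nhds_unique hx' ((hx.comp hτ.tendsto_atTop).const_mul _)
  refine ⟨h.test, ⟨h.data.val, h.data.grad, fun s => (hp s).ae_eq (hpe s)⟩, h.value, h.grad,
    fun s => ?_⟩
  refine (hpt s).congr fun k => integral_congr_ae ?_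
  filter_upwards [hpe s] with x hx
  rw [hx, ← mul_sub, norm_mul, mul_pow, norm_potA_sq]

end Vale.Agent.P363
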