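import Vale.Agent.P363.KS.FormOneBody
import Vale.Agent.P363.KS.Move
import Vale.Agent.P363.KS.SymPot

/-!
P363: an axially symmetric representable density is represented by an axially symmetric potential.
-/

noncomputable section

namespace Vale.Agent.P363

open MeasureTheory Filter
open scoped BigOperators Topology ENNReal

variable {m : ℕ}

theorem ground_congr {n : ℕ} {W W' : Cfg n → ℝ} (h : W =ᵐ[volume] W')
    {Ψ : Spins n → Cfg n → ℂ} (hΨ : IsGroundState W Ψ) : IsGroundState W' Ψ := by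
  have he : ∀ φ, energy W φ = energy W' φ := fun φ => Finset.sum_congr rfl fun s _ =>
    integral_congr_ae (h.mono fun x hx => by simp only [hx])
  obtain ⟨hmem, E, hlow, φ, ht, hen, hval⟩ := hΨ
  exact ⟨hmem, E, fun ψ hψ hn => he ψ ▸ hlow ψ hψ hn, φ, ht, by simpa only [he] using hen, hval⟩

theorem oneBody_congr {n : ℕ} {v v' : Space → ℝ} (h : v =ᵐ[volume] v') :
    oneBody (n := n) v =ᵐ[volume] oneBody v' := by
  filter_upwards [ae_all_iff.2 fun i : Fin n =>
    (Measure.quasiMeasurePreserving_eval (fun _ : Fin n => (volume : Measure Space)) i).ae h]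
    with x hx
  simp only [Function.eval] at hx
  simp only [oneBody, hx]

/-- Two ground states of one potential have the same energy. -/
theorem energy_unique {n : ℕ} {W : Cfg n → ℝ} {Ψ Ψ' : Spins n → Cfg n → ℂ} {E E' : ℝ}
    {G G' : Spins n → Fin n → Fin 3 → Cfg n → ℂ} (hW : FormBounded W)
    (h : GroundH1 W Ψ E G) (h' : GroundH1 W Ψ' E' G') : E = E' := by
  have key : ∀ {Ψ Ψ' : Spins n → Cfg n → ℂ} {E E' : ℝ}
      {G G' : Spins n → Fin n → Fin 3 → Cfg n → ℂ}, GroundH1 W Ψ E G → GroundH1 W Ψ' E' G' →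
      E ≤ E' := by
    intro Ψ Ψ' E E' G G' h h'
    obtain ⟨φ, ha⟩ := h'.approx
    have hT : TendstoForm W φ Ψ' G' := ⟨fun k => (ha.test k).1,
      ⟨fun s => (h'.hasGrad s).memLp, fun s => (h'.hasGrad s).memLp_grad, fun s =>
        memLp_potA hW.meas (h'.hasGrad s).memLp.1 (h'.integrable_pot s)⟩,
      ha.value, ha.grad, ha.pot⟩
    refine ge_of_tendsto' (h'.energy_eq ▸ hT.tendsto_energy hW) fun k => ?_
    simpa [(ha.test k).2] using h.lower _ (ha.test k).1
  exact le_antisymm (key h h') (key h' h)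

theorem axMeas_lintegral_le {F H : Bool × ℝ → ℝ≥0∞} {c d : ℝ≥0∞}
    (h : ∀ p, F p + c ≤ H p + d) :
    (∫⁻ p, F p ∂axMeas) + c ≤ (∫⁻ p, H p ∂axMeas) + d := by
  have := lintegral_mono (μ := axMeas) h
  rwa [lintegral_add_right _ measurable_const, lintegral_add_right _ measurable_const,
    lintegral_const, lintegral_const, measure_univ, mul_one, mul_one] at this

/-- `SymmetriseStmt`. -/
theorem symmetrise (hS : SobolevSixStmt) : FormSpec.SymmetriseStmt := by
  intro m ρ hsym hrep
  obtain ⟨v, w, Φ, hv, hw, hΦ, hρ⟩ := hrep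
  -- measurable pieces of `v`
  obtain ⟨v₁, v₂, h₁, h₂, rfl⟩ := hv
  set u₁ := h₁.1.mk v₁ with hu₁
  set B := (eLpNormEssSup v₂ volume).toReal with hBdef
  set u₂ := fun x => max (-B) (min B (h₂.1.mk v₂ x)) with hu₂
  have hB : 0 ≤ B := ENNReal.toReal_nonneg
  have hu₁m : Measurable u₁ := h₁.1.stronglyMeasurable_mk.measurable
  have hu₂m : Measurable u₂ :=
    measurable_const.max (measurable_const.min h₂.1.stronglyMeasurable_mk.measurable)
  have hu₁L : MemLp u₁ (3 / 2) := h₁.ae_eq h₁.1.ae_eq_mk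
  have hu₂B : ∀ x, |u₂ x| ≤ B := fun x => by
    rw [hu₂, abs_le]; exact ⟨le_max_left _ _, max_le (by linarith) (min_le_left _ _)⟩
  have hvu : v₁ + v₂ =ᵐ[volume] fun x => u₁ x + u₂ x := by
    have hb : ∀ᵐ x : Space, |v₂ x| ≤ B := by
      filter_upwards [ae_le_eLpNormEssSup (f := v₂) (μ := volume)] with x hx
      have hfin : eLpNormEssSup v₂ volume ≠ ∞ := by
        have := h₂.eLpNorm_ne_top
        rwa [eLpNorm_exponent_top] at this
      simpa [toReal_enorm, Real.norm_eq_abs] using ENNReal.toReal_mono hfin hx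
    filter_upwards [hb, h₁.1.ae_eq_mk, h₂.1.ae_eq_mk] with x hx h1 h2
    simp only [Pi.add_apply, hu₂, hu₁, ← h1, ← h2]
    rw [abs_le] at hx
    rw [min_eq_right hx.2, max_eq_right hx.1]
  set u := fun x => u₁ x + u₂ x with hu
  have hum : Measurable u := hu₁m.add hu₂m
  have huV : InV u := ⟨u₁, u₂, hu₁L,
    memLp_top_of_bound hu₂m.aestronglyMeasurable B (ae_of_all _ hu₂B), rfl⟩
  have hWu := oneBody_formBounded hS (m + 1) u huV
  have hΦu : ∀ k, IsGroundState (oneBody u) (Φ k) := fun k =>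
    ground_congr (oneBody_congr hvu) (hΦ k)
  choose E G hG using fun k => ground_h1 _ _ _ hWu (hΦu k)
  have hE : ∀ k, E k = E 0 := fun k => energy_unique hWu (hG k) (hG 0)
  -- the two nonnegative parts and their averages
  set p := fun x => ENNReal.ofReal (u x) with hp
  set q := fun x => ENNReal.ofReal (-u x) with hq
  set A₁ := axAvg fun x => ‖u₁ x‖ₑ with hA₁
  have hpm : Measurable p := hum.ennreal_ofReal
  have hqm : Measurable q := hum.neg.ennreal_ofReal
  have hA₁m : Measurable A₁ := measurable_axAvg hu₁m.enorm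
  have hA₁top : ∫⁻ x, A₁ x ^ (3 / 2 : ℝ) < ∞ := by
    refine (axAvg_rpow_le hu₁m.enorm (by norm_num)).trans_lt ?_
    have := lintegral_rpow_enorm_lt_top_of_eLpNorm_lt_top (p := (3 / 2 : ℝ≥0∞)) (by norm_num)
      (by simp [ENNReal.div_eq_top]) hu₁L.2
    simpa using this
  have hA₁fin : ∀ᵐ x, A₁ x < ∞ := by
    filter_upwards [ae_lt_top (hA₁m.pow_const _) hA₁top.ne] with x hx
    exact lt_top_iff_ne_top.2 fun h => by
      rw [h, ENNReal.top_rpow_of_pos (by norm_num)] at hx
      exact lt_irrefl _ hx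
  have hA₁L : MemLp (fun x => (A₁ x).toReal) (3 / 2) := by
    refine ⟨hA₁m.ennreal_toReal.aestronglyMeasurable,
      (eLpNorm_lt_top_iff_lintegral_rpow_enorm_lt_top (by norm_num)
        (by simp [ENNReal.div_eq_top])).2 ?_⟩
    refine lt_of_le_of_lt (lintegral_mono fun x => ?_) hA₁top
    simp only [ENNReal.toReal_div, ENNReal.toReal_ofNat]
    refine ENNReal.rpow_le_rpow ?_ (by norm_num)
    rw [Real.enorm_eq_ofReal ENNReal.toReal_nonneg]
    exact ENNReal.ofReal_toReal_le
  have hpq : ∀ x, p x ≤ ‖u₁ x‖ₑ + ENNReal.ofReal B ∧ q x ≤ ‖u₁ x‖ₑ + ENNReal.ofReal B := by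
    intro x
    rw [hp, hq, Real.enorm_eq_ofReal_abs, ← ENNReal.ofReal_add (abs_nonneg _) hB]
    have h2 := abs_le.1 (hu₂B x)
    exact ⟨ENNReal.ofReal_le_ofReal (by show u₁ x + u₂ x ≤ _; linarith [le_abs_self (u₁ x)]),
      ENNReal.ofReal_le_ofReal
        (by show -(u₁ x + u₂ x) ≤ _; linarith [neg_abs_le (u₁ x)])⟩
  -- averaged potentials of the class
  have avgV : ∀ f : Space → ℝ≥0∞, Measurable f → (∀ x, f x ≤ ‖u₁ x‖ₑ + ENNReal.ofReal B) →
      InV (fun x => (axAvg f x).toReal) ∧
        (fun x => ENNReal.ofReal (axAvg f x).toReal) =ᵐ[volume] axAvg f := by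
    intro f hf hle
    have hbd : ∀ x, axAvg f x ≤ A₁ x + ENNReal.ofReal B := fun x => by
      refine (axAvg_mono hle x).trans_eq ?_
      rw [axAvg_add hu₁m.enorm, axAvg_const]
    refine ⟨inV_of_le (measurable_axAvg hf).ennreal_toReal hB hA₁L ?_, ?_⟩
    · filter_upwards [hA₁fin] with x hx
      rw [abs_of_nonneg ENNReal.toReal_nonneg, abs_of_nonneg ENNReal.toReal_nonneg]
      have := ENNReal.toReal_mono (ENNReal.add_ne_top.2 ⟨hx.ne, ENNReal.ofReal_ne_top⟩) (hbd x)
      rwa [ENNReal.toReal_add hx.ne ENNReal.ofReal_ne_top, ENNReal.toReal_ofReal hB] at this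
    · filter_upwards [hA₁fin] with x hx
      exact ENNReal.ofReal_toReal
        (ne_top_of_le_ne_top (ENNReal.add_ne_top.2 ⟨hx.ne, ENNReal.ofReal_ne_top⟩) (hbd x))
  obtain ⟨haV, hae⟩ := avgV p hpm fun x => (hpq x).1
  obtain ⟨hbV, hbe⟩ := avgV q hqm fun x => (hpq x).2
  set a := fun x => (axAvg p x).toReal with ha
  set b := fun x => (axAvg q x).toReal with hb
  set w' := fun x => a x - b x with hw'
  have hw'V : InV w' := by
    obtain ⟨a₁, a₂, ha₁, ha₂, hae'⟩ := haV
    obtain ⟨b₁, b₂, hb₁, hb₂, hbe'⟩ := hbV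
    refine ⟨a₁ - b₁, a₂ - b₂, ha₁.sub hb₁, ha₂.sub hb₂, ?_⟩
    funext x
    have e1 : a x = a₁ x + a₂ x := congrFun hae' x
    have e2 : b x = b₁ x + b₂ x := congrFun hbe' x
    simp only [hw', Pi.add_apply, Pi.sub_apply, e1, e2]
    ring
  have ha0 : ∀ x, 0 ≤ a x := fun x => ENNReal.toReal_nonneg
  have hb0 : ∀ x, 0 ≤ b x := fun x => ENNReal.toReal_nonneg
  have hWw := oneBody_formBounded hS (m + 1) w' hw'V
  have hWa := oneBody_formBounded hS (m + 1) a haV
  have hWb := oneBody_formBounded hS (m + 1) b hbV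
  -- positive and negative part of a moved potential
  have partV : ∀ (bo : Bool) (θ : ℝ) (f : Space → ℝ), Measurable f →
      (∀ x, |f x| ≤ |u₁ x| + B) → InV fun x => f (axMap bo θ x) := by
    intro bo θ f hf hle
    have hmp := (axIso bo θ).measurePreserving
    exact inV_of_le (hf.comp (measurable_axMap.comp
      ((measurable_const (a := ((bo, θ) : Bool × ℝ))).prodMk (measurable_id (α := Space)))))
      hB (hu₁L.comp_measurePreserving hmp) (ae_of_all _ fun x => hle _)
  have hpos : ∀ x, |max (u x) 0| ≤ |u₁ x| + B ∧ |max (-u x) 0| ≤ |u₁ x| + B := by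
    intro x
    have h2 := abs_le.1 (hu₂B x)
    have h1 := abs_le.1 (le_refl |u₁ x|)
    rw [abs_of_nonneg (le_max_right (u x) 0), abs_of_nonneg (le_max_right (-u x) 0)]
    exact ⟨max_le (by show u₁ x + u₂ x ≤ _; linarith [h1.2]) (by positivity),
      max_le (by show -(u₁ x + u₂ x) ≤ _; linarith [h1.1]) (by positivity)⟩
  -- the averaged potential keeps the lower bound
  have hlow : ∀ φ : Spins (m + 1) → Cfg (m + 1) → ℂ, IsTest φ →
      E 0 * normSq φ ≤ energy (oneBody w') φ := by
    intro φ hφ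
    set K := kinH (testGrad φ) with hK
    set L := E 0 * normSq φ - K with hL
    have hg : ∀ z : Bool × ℝ,
        potL (fun x => q (axMap z.1 z.2 x)) φ + ENNReal.ofReal L ≤
          potL (fun x => p (axMap z.1 z.2 x)) φ + ENNReal.ofReal (-L) := by
      rintro ⟨bo, θ⟩
      set g := axIso bo θ
      set φ' := moveCfg g.symm φ with hφ'
      have ht : IsTest φ' := by rw [hφ', ← moveCfg_eq]; exact hφ.sim one_pos g.symm
      have hn : normSq φ' = normSq φ := by
        rw [hφ', ← moveCfg_eq, normSq_sim one_pos]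
      have hback : simCfg 1 g φ' = φ := by
        rw [moveCfg_eq, hφ']
        funext s x
        simp [moveCfg]
      have hen := energy_sim (g := g) one_pos (oneBody u) ht
      rw [hback, one_pow, one_mul, simPot_one] at hen
      have hW1 : (fun x : Cfg (m + 1) => oneBody u fun i => g (x i)) =
          oneBody fun y => u (axMap bo θ y) := rfl
      rw [hW1] at hen
      have hmg := measurable_axMap.comp
        ((measurable_const (a := ((bo, θ) : Bool × ℝ))).prodMk (measurable_id (α := Space)))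
      have hgV : InV fun y => u (axMap bo θ y) := by
        refine partV bo θ u hum fun x => ?_
        show |u₁ x + u₂ x| ≤ _
        exact (abs_add_le _ _).trans (by linarith [hu₂B x])
      have hgpV := partV bo θ (fun x => max (u x) 0) (hum.max measurable_const) fun x => (hpos x).1
      have hgqV := partV bo θ (fun x => max (-u x) 0) (hum.neg.max measurable_const)
        fun x => (hpos x).2
      have b0 := oneBody_formBounded hS (m + 1) _ hgV
      have b1 := oneBody_formBounded hS (m + 1) _ hgpV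
      have b2 := oneBody_formBounded hS (m + 1) _ hgqV
      have hsub := energyH_sub (v := fun y => u (axMap bo θ y))
        (a := fun y => max (u (axMap bo θ y)) 0) (b := fun y => max (-u (axMap bo θ y)) 0)
        (ae_of_all _ fun y => by
          rcases le_total 0 (u (axMap bo θ y)) with h | h <;> simp [h])
        (fun y => le_max_right _ _) (fun y => le_max_right _ _) b0.meas b1.meas b2.meas
        (hφ.formData b0) (hφ.formData b1) (hφ.formData b2)
      have hmax : ∀ t : ℝ, ENNReal.ofReal (max t 0) = ENNReal.ofReal t := fun t => by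
        rcases le_total 0 t with h | h <;> simp [h, ENNReal.ofReal_of_nonpos]
      simp only [hmax] at hsub
      have hf1 := potL_ofReal_ne_top (fun y => le_max_right (u (axMap bo θ y)) 0) b1.meas
        (hφ.formData b1)
      have hf2 := potL_ofReal_ne_top (fun y => le_max_right (-u (axMap bo θ y)) 0) b2.meas
        (hφ.formData b2)
      simp only [hmax] at hf1 hf2
      have hlo := (hG 0).lower φ' ht
      rw [hn, ← hen, energy_eq, hsub, ← hK] at hlo
      show potL (fun x => q (axMap bo θ x)) φ + _ ≤ potL (fun x => p (axMap bo θ x)) φ + _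
      simp only [hp, hq]
      rw [← ENNReal.toReal_le_toReal (ENNReal.add_ne_top.2 ⟨hf2, ENNReal.ofReal_ne_top⟩)
        (ENNReal.add_ne_top.2 ⟨hf1, ENNReal.ofReal_ne_top⟩),
        ENNReal.toReal_add hf2 ENNReal.ofReal_ne_top, ENNReal.toReal_add hf1 ENNReal.ofReal_ne_top,
        ENNReal.toReal_ofReal', ENNReal.toReal_ofReal']
      rcases le_total 0 L with h | h <;>
        simp only [max_eq_left, max_eq_right, neg_nonneg, neg_nonpos, h] <;> linarith
    have hint := axMeas_lintegral_le hg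
    rw [← potL_comp_axMap hqm fun s => (hφ.memLp s).1,
      ← potL_comp_axMap hpm fun s => (hφ.memLp s).1, ← potL_congr hae, ← potL_congr hbe] at hint
    have hfa := potL_ofReal_ne_top ha0 hWa.meas (hφ.formData hWa)
    have hfb := potL_ofReal_ne_top hb0 hWb.meas (hφ.formData hWb)
    rw [← ENNReal.toReal_le_toReal (ENNReal.add_ne_top.2 ⟨hfb, ENNReal.ofReal_ne_top⟩)
      (ENNReal.add_ne_top.2 ⟨hfa, ENNReal.ofReal_ne_top⟩),
      ENNReal.toReal_add hfb ENNReal.ofReal_ne_top, ENNReal.toReal_add hfa ENNReal.ofReal_ne_top,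
      ENNReal.toReal_ofReal', ENNReal.toReal_ofReal'] at hint
    rw [energy_eq, energyH_sub (v := w') (ae_of_all _ fun x => rfl) ha0 hb0 hWw.meas hWa.meas
      hWb.meas (hφ.formData hWw) (hφ.formData hWa) (hφ.formData hWb), ← hK]
    rcases le_total 0 L with h | h <;>
      simp only [max_eq_left, max_eq_right, neg_nonneg, neg_nonpos, h] at hint <;> linarith
  -- nonnegative potentials of the class have uniformly bounded energy
  have bdd : ∀ h : Space → ℝ, InV h → (∀ x, 0 ≤ h x) → ∃ C : ℝ, ∀ k,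
      FormData (oneBody h) (Φ k) (G k) ∧
        potL (fun x => ENNReal.ofReal (h x)) (Φ k) ≤ ENNReal.ofReal C := by
    intro h hh h0
    have hWh := oneBody_formBounded hS (m + 1) h hh
    obtain ⟨C, hC, hk⟩ := kin_le hWu (E 0)
    obtain ⟨C', hC', hb'⟩ := hWh.bound 1 one_pos
    refine ⟨C + C', fun k => ?_⟩
    obtain ⟨φ, hφ⟩ := (hG k).approx
    have hT : TendstoForm (oneBody u) φ (Φ k) (G k) := ⟨fun j => (hφ.test j).1,
      ⟨fun s => ((hG k).hasGrad s).memLp, fun s => ((hG k).hasGrad s).memLp_grad, fun s =>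
        memLp_potA hWu.meas ((hG k).hasGrad s).memLp.1 ((hG k).integrable_pot s)⟩,
      hφ.value, hφ.grad, hφ.pot⟩
    have hT' := hT.change hWh
    refine ⟨hT'.data, ?_⟩
    rw [potL_ofReal h0 hWh.meas hT'.data]
    refine ENNReal.ofReal_le_ofReal ?_
    have hnn : ∀ x : Cfg (m + 1), |oneBody h x| = oneBody h x := fun x =>
      abs_of_nonneg (Finset.sum_nonneg fun i _ => h0 _)
    have hlim : Tendsto (fun j => ∑ s, ∫ x, oneBody h x * ‖φ j s x‖ ^ 2) atTop
        (𝓝 (∑ s, ∫ x, oneBody h x * ‖Φ k s x‖ ^ 2)) := by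
      refine tendsto_finsetSum _ fun s _ => ?_
      have := tendsto_integral_sq (fun j => ((hT'.test j).formData hWh).pot s) (hT'.data.pot s)
        (hT'.potA s)
      simpa only [norm_mul, mul_pow, norm_potA_sq, hnn] using this
    have hex : Tendsto (fun j => 4 * excess (oneBody u) (E 0) (φ j) + (C + C')) atTop
        (𝓝 (C + C')) := by
      have := ((hT.tendsto_energy hWu).sub_const (E 0)).const_mul 4 |>.add_const (C + C')
      rw [(hG k).energy_eq, hE k, sub_self, mul_zero, zero_add] at this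
      refine this.congr fun j => ?_
      rw [excess, (hφ.test j).2, mul_one]
    refine le_of_tendsto_of_tendsto' hlim hex fun j => ?_
    have h1 := (hk _ (hφ.test j).1).1
    have h2 : ∑ s, ∫ x, oneBody h x * ‖φ j s x‖ ^ 2 ≤
        (∑ s, ∫ x, ∑ i, gradSq i (φ j s) x) + C' * normSq (φ j) := by
      rw [normSq, Finset.mul_sum, ← Finset.sum_add_distrib]
      refine Finset.sum_le_sum fun s _ => ?_
      have := hb' _ ((hφ.test j).1.lipTest s)
      simpa only [one_mul, hnn] using this
    rw [(hφ.test j).2, mul_one] at h1 h2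
    linarith
  obtain ⟨Ca, hCa⟩ := bdd a haV ha0
  obtain ⟨Cb, hCb⟩ := bdd b hbV hb0
  have hpV : InV fun x => max (u x) 0 :=
    inV_of_le (hum.max measurable_const) hB hu₁L (ae_of_all _ fun x => (hpos x).1)
  have hqV : InV fun x => max (-u x) 0 :=
    inV_of_le (hum.neg.max measurable_const) hB hu₁L (ae_of_all _ fun x => (hpos x).2)
  obtain ⟨Cp, hCp⟩ := bdd _ hpV fun x => le_max_right _ _
  obtain ⟨Cq, hCq⟩ := bdd _ hqV fun x => le_max_right _ _
  have hmax : ∀ t : ℝ, ENNReal.ofReal (max t 0) = ENNReal.ofReal t := fun t => by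
    rcases le_total 0 t with h | h <;> simp [h, ENNReal.ofReal_of_nonpos]
  simp only [hmax] at hCp hCq
  -- per state: the averaged energy is not below `E 0`
  set Pa := fun k => potL (fun x => ENNReal.ofReal (a x)) (Φ k)
  set Pb := fun k => potL (fun x => ENNReal.ofReal (b x)) (Φ k)
  set Pp := fun k => potL p (Φ k)
  set Pq := fun k => potL q (Φ k)
  have fa : ∀ k, Pa k ≠ ∞ := fun k => ne_top_of_le_ne_top ENNReal.ofReal_ne_top (hCa k).2
  have fb : ∀ k, Pb k ≠ ∞ := fun k => ne_top_of_le_ne_top ENNReal.ofReal_ne_top (hCb k).2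
  have fp : ∀ k, Pp k ≠ ∞ := fun k => ne_top_of_le_ne_top ENNReal.ofReal_ne_top (hCp k).2
  have fq : ∀ k, Pq k ≠ ∞ := fun k => ne_top_of_le_ne_top ENNReal.ofReal_ne_top (hCq k).2
  have happ : ∀ k, ∃ φ, TendstoForm (oneBody w') φ (Φ k) (G k) ∧
      ∀ j, normSq (φ j) = 1 := by
    intro k
    obtain ⟨φ, hφ⟩ := (hG k).approx
    have hT : TendstoForm (oneBody u) φ (Φ k) (G k) := ⟨fun j => (hφ.test j).1,
      ⟨fun s => ((hG k).hasGrad s).memLp, fun s => ((hG k).hasGrad s).memLp_grad, fun s =>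
        memLp_potA hWu.meas ((hG k).hasGrad s).memLp.1 ((hG k).integrable_pot s)⟩,
      hφ.value, hφ.grad, hφ.pot⟩
    exact ⟨φ, hT.change hWw, fun j => (hφ.test j).2⟩
  choose φs hTs hns using happ
  have hnew : ∀ k, energyH (oneBody w') (Φ k) (G k) =
      kinH (G k) + (Pa k).toReal - (Pb k).toReal := fun k =>
    energyH_sub (ae_of_all _ fun x => rfl) ha0 hb0 hWw.meas hWa.meas hWb.meas (hTs k).data
      (hCa k).1 (hCb k).1
  have hold : ∀ k, E 0 = kinH (G k) + (Pp k).toReal - (Pq k).toReal := fun k => by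
    rw [← hE k, ← (hG k).energy_eq]
    have := energyH_sub (v := u) (a := fun x => max (u x) 0) (b := fun x => max (-u x) 0)
      (Ψ := Φ k) (G := G k)
      (ae_of_all _ fun y => by rcases le_total 0 (u y) with h | h <;> simp [h])
      (fun y => le_max_right _ _) (fun y => le_max_right _ _) hWu.meas
      (oneBody_formBounded hS (m + 1) _ hpV).meas (oneBody_formBounded hS (m + 1) _ hqV).meas
      ⟨fun s => ((hG k).hasGrad s).memLp, fun s => ((hG k).hasGrad s).memLp_grad, fun s =>
        memLp_potA hWu.meas ((hG k).hasGrad s).memLp.1 ((hG k).integrable_pot s)⟩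
      (hCp k).1 (hCq k).1
    simpa only [hmax] using this
  have hge : ∀ k, E 0 ≤ energyH (oneBody w') (Φ k) (G k) := fun k =>
    ge_of_tendsto' ((hTs k).tendsto_energy hWw) fun j => by
      simpa [hns k j] using hlow _ ((hTs k).test j)
  -- the mixture does not feel the averaging
  have hρm : AEMeasurable ρ := by
    refine AEMeasurable.congr ?_ hρ.symm
    exact AEMeasurable.tsum fun k =>
      (aemeasurable_density fun s => ((hΦ k).1 s).1).const_mul _
  have hpair : ∀ f : Space → ℝ≥0∞, Measurable f →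
      ∫⁻ x, f x * ρ x = ∑' k, w k * potL f (Φ k) := by
    intro f hf
    have hm : ∀ k, AEMeasurable (fun x => w k * (f x * density (Φ k) x)) := fun k =>
      (hf.aemeasurable.mul (aemeasurable_density fun s => ((hΦ k).1 s).1)).const_mul _
    calc ∫⁻ x, f x * ρ x = ∫⁻ x, ∑' k, w k * (f x * density (Φ k) x) := by
          refine lintegral_congr_ae ?_
          filter_upwards [hρ] with x hx
          rw [hx, ← ENNReal.tsum_mul_left]
          exact tsum_congr fun k => mul_left_comm _ _ _
      _ = ∑' k, w k * potL f (Φ k) := by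
          rw [lintegral_tsum hm]
          refine tsum_congr fun k => ?_
          rw [lintegral_const_mul'' (f := fun x => f x * density (Φ k) x) _
            (hf.aemeasurable.mul (aemeasurable_density fun s => ((hΦ k).1 s).1)),
            lintegral_density hf fun s => ((hΦ k).1 s).1]
  have hmix : ∑' k, w k * (Pa k + Pq k) = ∑' k, w k * (Pb k + Pp k) := by
    simp only [mul_add, ENNReal.tsum_add]
    have e : ∀ f : Space → ℝ≥0∞, Measurable f →
        ∑' k, w k * potL (axAvg f) (Φ k) = ∑' k, w k * potL f (Φ k) := fun f hf => by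
      rw [← hpair _ (measurable_axAvg hf), ← hpair _ hf, lintegral_axAvg_mul hf hρm hsym]
    have ea : ∀ k, Pa k = potL (axAvg p) (Φ k) := fun k => potL_congr hae
    have eb : ∀ k, Pb k = potL (axAvg q) (Φ k) := fun k => potL_congr hbe
    simp only [ea, eb, e p hpm, e q hqm, Pp, Pq]
    rw [add_comm]
  have heq : ∀ k, w k ≠ 0 → energyH (oneBody w') (Φ k) (G k) = E 0 := by
    intro k hk
    refine le_antisymm ?_ (hge k)
    by_contra hgt
    rw [not_le] at hgt
    have hle : ∀ j, w j * (Pb j + Pp j) ≤ w j * (Pa j + Pq j) := by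
      intro j
      gcongr w j * ?_
      rw [← ENNReal.toReal_le_toReal (ENNReal.add_ne_top.2 ⟨fb j, fp j⟩)
        (ENNReal.add_ne_top.2 ⟨fa j, fq j⟩), ENNReal.toReal_add (fb j) (fp j),
        ENNReal.toReal_add (fa j) (fq j)]
      linarith [hge j, hnew j, hold j]
    have hlt : w k * (Pb k + Pp k) < w k * (Pa k + Pq k) := by
      have hwk : w k ≠ ∞ := ne_top_of_le_ne_top ENNReal.one_ne_top (hw ▸ ENNReal.le_tsum k)
      refine (ENNReal.mul_lt_mul_iff_right hk hwk).2 ?_
      rw [← ENNReal.toReal_lt_toReal (ENNReal.add_ne_top.2 ⟨fb k, fp k⟩)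
        (ENNReal.add_ne_top.2 ⟨fa k, fq k⟩), ENNReal.toReal_add (fb k) (fp k),
        ENNReal.toReal_add (fa k) (fq k)]
      linarith [hnew k, hold k]
    have hfin : ∑' j, w j * (Pb j + Pp j) ≠ ∞ := by
      refine ne_top_of_le_ne_top (b := ENNReal.ofReal Cb + ENNReal.ofReal Cp)
        (ENNReal.add_ne_top.2 ⟨ENNReal.ofReal_ne_top, ENNReal.ofReal_ne_top⟩) ?_
      calc ∑' j, w j * (Pb j + Pp j)
          ≤ ∑' j, w j * (ENNReal.ofReal Cb + ENNReal.ofReal Cp) := by
            gcongr with j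
            · exact (hCb j).2
            · exact (hCp j).2
        _ = _ := by rw [ENNReal.tsum_mul_right, hw, one_mul]
    exact (ENNReal.tsum_lt_tsum hfin hle hlt).ne hmix.symm
  have hground : ∀ k, w k ≠ 0 → IsGroundState (oneBody w') (Φ k) := fun k hk =>
    ⟨(hΦ k).1, E 0, fun φ hφ hn => by simpa [hn] using hlow φ hφ, φs k,
      fun j => ⟨(hTs k).test j, hns k j⟩, heq k hk ▸ (hTs k).tendsto_energy hWw, (hTs k).value⟩
  obtain ⟨k₀, hk₀⟩ : ∃ k, w k ≠ 0 := by
    by_contra! h
    simp [h] at hw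
  refine ⟨w', w, fun k => if w k = 0 then Φ k₀ else Φ k, hw'V,
    (measurable_axAvg hpm).ennreal_toReal.sub (measurable_axAvg hqm).ennreal_toReal,
    ⟨fun θ x => ?_, fun x => ?_⟩, hw, fun k => ?_, hρ.trans (ae_of_all _ fun r => ?_)⟩
  · simp only [hw', ha, hb, (axAvg_sym hpm).1 θ x, (axAvg_sym hqm).1 θ x]
  · simp only [hw', ha, hb, (axAvg_sym hpm).2 x, (axAvg_sym hqm).2 x]
  · dsimp only
    split_ifs with h
    · exact hground k₀ hk₀
    · exact hground k h
  · refine tsum_congr fun k => ?_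
    by_cases h : w k = 0 <;> simp [h]

end Vale.Agent.P363
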