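import Vale.Agent.P363.KS.FormGround
import Vale.Agent.P363.KS.Scale
import Vale.Agent.P363.KS.Symmetrise
import Vale.Agent.P363.Tool.Sobolev.Main

/-!
P363: the exports of the form module, with the Sobolev inequality discharged.
-/

noncomputable section

namespace Vale.Agent.P363.FormSpec

/-- Potentials of the class are bounded by the `H¹` norm. -/
theorem weakBound : WeakBoundStmt := weakBound_inV sobolev_six

/-- One-body potentials of the class are infinitesimally form bounded. -/
theorem oneBody : OneBodyStmt := oneBody_formBounded sobolev_six

/-- An axially symmetric representable density has an axially symmetric potential. -/
theorem symmetriseThm : SymmetriseStmt := symmetrise sobolev_six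

end Vale.Agent.P363.FormSpec
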