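import Vale.Agent.P363.KS.FormTest

/-!
P363: a minimising sequence of tests that converges in mean square converges in the form norm;
ground states of form bounded potentials are in `H¹` and solve the weak equation.
-/

noncomputable section

namespace Vale.Agent.P363

open MeasureTheory Filter
open scoped BigOperators Topology ComplexConjugate ENNReal

variable {n : ℕ} {W : Cfg n → ℝ} {φ ψ Ψ : Spins n → Cfg n → ℂ} {E : ℝ}

theorem normSq_nonneg (φ : Spins n → Cfg n → ℂ) : 0 ≤ normSq φ :=
  Finset.sum_nonneg fun _ _ => integral_nonneg fun _ => sq_nonneg _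

/-- The lower bound on normalised tests holds for all tests. -/
theorem lower_all (hlow : ∀ φ : Spins n → Cfg n → ℂ, IsTest φ → normSq φ = 1 → E ≤ energy W φ)
    (hφ : IsTest φ) : E * normSq φ ≤ energy W φ := by
  rcases (normSq_nonneg φ).eq_or_lt with h | h
  · have hz : ∀ s x, φ s x = 0 := by
      intro s x
      obtain ⟨K, hK⟩ := hφ.lipschitz s
      have h1 : ∫ x, ‖φ s x‖ ^ 2 = 0 :=
        (Finset.sum_eq_zero_iff_of_nonneg fun s _ => integral_nonneg fun _ => sq_nonneg _).1 h.symm
          s (Finset.mem_univ s)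
      have h2 : (fun x => φ s x) =ᵐ[volume] fun _ => 0 := by
        filter_upwards [(integral_eq_zero_iff_of_nonneg (fun _ => sq_nonneg _)
          ((hφ.memLp s).integrable_norm_pow two_ne_zero)).1 h1] with x hx
        simpa using hx
      exact congrFun (Measure.eq_of_ae_eq h2 hK.continuous continuous_const) x
    have he : energy W φ = 0 := by
      have hg : ∀ s i x, gradSq i (φ s) x = 0 := by
        intro s i x
        simp [gradSq, show φ s = fun _ => (0 : ℂ) from funext (hz s)]
      simp [energy, hg, hz]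
    rw [← h, he, mul_zero]
  · set c : ℂ := (((Real.sqrt (normSq φ))⁻¹ : ℝ) : ℂ) with hc
    have hn : ‖c‖ ^ 2 = (normSq φ)⁻¹ := by
      rw [hc, Complex.norm_real, Real.norm_eq_abs, sq_abs, inv_pow, Real.sq_sqrt h.le]
    have hd : ∀ s, ∀ᵐ x : Cfg n, ∀ i a,
        cfgDeriv i a (fun x => c * φ s x) x = c * cfgDeriv i a (φ s) x := by
      intro s
      obtain ⟨K, hK⟩ := hφ.lipschitz s
      filter_upwards [hK.ae_differentiableAt] with x hx i a
      rw [cfgDeriv, (hx.hasFDerivAt.const_mul c).fderiv]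
      simp [cfgDeriv]
    have hN : normSq (fun s x => c * φ s x) = ‖c‖ ^ 2 * normSq φ := by
      simp only [normSq, norm_mul, mul_pow, integral_const_mul, Finset.mul_sum]
    have hE : energy W (fun s x => c * φ s x) = ‖c‖ ^ 2 * energy W φ := by
      simp only [energy, Finset.mul_sum (a := ‖c‖ ^ 2), ← integral_const_mul]
      refine Finset.sum_congr rfl fun s _ => integral_congr_ae ?_
      filter_upwards [hd s] with x hx
      simp only [cfgDeriv, unit3] at hx
      simp only [gradSq, hx, norm_mul, mul_pow, ← Finset.mul_sum]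
      ring
    have := hlow _ (hφ.const_mul c) (by rw [hN, hn, inv_mul_cancel₀ h.ne'])
    rw [hE, hn] at this
    rwa [mul_comm E, ← le_inv_mul_iff₀ h]

/-- The kinetic energy of a test is controlled by the excess and the norm. -/
theorem kin_le (hW : FormBounded W) (E : ℝ) :
    ∃ C : ℝ, 0 ≤ C ∧ ∀ φ : Spins n → Cfg n → ℂ, IsTest φ →
      (∑ s, ∫ x, ∑ i, gradSq i (φ s) x) ≤ 4 * excess W E φ + C * normSq φ ∧
      (∑ s, ∫ x, |W x| * ‖φ s x‖ ^ 2) ≤ excess W E φ + C * normSq φ := by
  obtain ⟨C, hC, hb⟩ := hW.bound (1 / 4) (by norm_num)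
  refine ⟨4 * (C + |E|), by positivity, fun φ hφ => ?_⟩
  set K := ∑ s, ∫ x, ∑ i, gradSq i (φ s) x with hK
  set P := ∑ s, ∫ x, |W x| * ‖φ s x‖ ^ 2 with hP
  have hPK : P ≤ 1 / 4 * K + C * normSq φ := by
    rw [hK, normSq, Finset.mul_sum, Finset.mul_sum, ← Finset.sum_add_distrib]
    exact Finset.sum_le_sum fun s _ => hb _ (hφ.lipTest s)
  have hE : 1 / 2 * K - P ≤ energy W φ := by
    rw [hK, hP, energy, Finset.mul_sum, ← Finset.sum_sub_distrib]
    refine Finset.sum_le_sum fun s _ => ?_
    obtain ⟨L, hL⟩ := hφ.lipschitz s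
    have i1 : Integrable fun x => ∑ i, gradSq i (φ s) x :=
      integrable_finsetSum _ fun i _ => integrable_finsetSum _ fun a _ =>
        (hφ.memLp_deriv s i a).integrable_norm_pow two_ne_zero
    have i2 : Integrable fun x => |W x| * ‖φ s x‖ ^ 2 :=
      (hW.integrable _ (hφ.lipTest s)).norm.congr (ae_of_all _ fun x => by simp [Real.norm_eq_abs])
    rw [← integral_const_mul, ← integral_sub (i1.const_mul _) i2]
    refine integral_mono ((i1.const_mul _).sub i2)
      ((i1.const_mul _).add (hW.integrable _ (hφ.lipTest s))) fun x => ?_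
    have hx : -(|W x| * ‖φ s x‖ ^ 2) ≤ W x * ‖φ s x‖ ^ 2 := by
      rw [← neg_mul]; exact mul_le_mul_of_nonneg_right (neg_abs_le _) (sq_nonneg _)
    linarith
  have hEn : E * normSq φ ≤ |E| * normSq φ :=
    mul_le_mul_of_nonneg_right (le_abs_self E) (normSq_nonneg φ)
  have h0 : 0 ≤ C * normSq φ := mul_nonneg hC (normSq_nonneg φ)
  have h0' : 0 ≤ |E| * normSq φ := mul_nonneg (abs_nonneg E) (normSq_nonneg φ)
  simp only [excess]
  constructor <;> linarith

section sequences

variable {φs : ℕ → Spins n → Cfg n → ℂ} {G : Spins n → Fin n → Fin 3 → Cfg n → ℂ}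

/-- What is needed of a convergent sequence of tests. -/
structure TendstoForm (W : Cfg n → ℝ) (φs : ℕ → Spins n → Cfg n → ℂ) (Ψ : Spins n → Cfg n → ℂ)
    (G : Spins n → Fin n → Fin 3 → Cfg n → ℂ) : Prop where
  test : ∀ k, IsTest (φs k)
  data : FormData W Ψ G
  value : ∀ s, Tendsto (fun k => ∫ x, ‖φs k s x - Ψ s x‖ ^ 2) atTop (𝓝 0)
  grad : ∀ s i a,
    Tendsto (fun k => ∫ x, ‖cfgDeriv i a (φs k s) x - G s i a x‖ ^ 2) atTop (𝓝 0)
  pot : ∀ s, Tendsto (fun k => ∫ x, |W x| * ‖φs k s x - Ψ s x‖ ^ 2) atTop (𝓝 0)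

theorem TendstoForm.potA (h : TendstoForm W φs Ψ G) (s : Spins n) :
    Tendsto (fun k => ∫ x, ‖potA W x * φs k s x - potA W x * Ψ s x‖ ^ 2) atTop (𝓝 0) := by
  refine (h.pot s).congr fun k => ?_
  simp only [← mul_sub, norm_mul, mul_pow, norm_potA_sq]

theorem TendstoForm.potB (h : TendstoForm W φs Ψ G) (s : Spins n) :
    Tendsto (fun k => ∫ x, ‖potB W x * φs k s x - potB W x * Ψ s x‖ ^ 2) atTop (𝓝 0) := by
  refine (h.pot s).congr fun k => ?_
  simp only [← mul_sub, norm_mul, mul_pow, norm_potB, norm_potA_sq]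

theorem TendstoForm.tendsto_normSq (h : TendstoForm W φs Ψ G) :
    Tendsto (fun k => normSq (φs k)) atTop (𝓝 (normSq Ψ)) :=
  tendsto_finsetSum _ fun s _ =>
    tendsto_integral_sq (fun k => (h.test k).memLp s) (h.data.val s) (h.value s)

theorem TendstoForm.tendsto_energy (hW : FormBounded W) (h : TendstoForm W φs Ψ G) :
    Tendsto (fun k => energy W (φs k)) atTop (𝓝 (energyH W Ψ G)) := by
  have hd := fun k => (h.test k).formData hW
  simp only [energy_eq, energyH_eq, formB_eq hW.meas h.data h.data,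
    fun k => formB_eq hW.meas (hd k) (hd k)]
  refine (Complex.continuous_re.tendsto _).comp (tendsto_finsetSum _ fun s _ => ?_)
  exact ((tendsto_finsetSum _ fun i _ => tendsto_finsetSum _ fun a _ =>
      tendsto_integral_conj_mul (fun k => (hd k).grad s i a) (h.data.grad s i a)
        (fun k => (hd k).grad s i a) (h.data.grad s i a) (h.grad s i a) (h.grad s i a)).const_mul
      _).add
    (tendsto_integral_conj_mul (fun k => (hd k).pot s) (h.data.pot s)
      (fun k => memLp_potB hW.meas ((hd k).val s).1 ((hd k).pot s))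
      (memLp_potB hW.meas (h.data.val s).1 (h.data.pot s)) (h.potA s) (h.potB s))

theorem TendstoForm.tendsto_formB (hW : FormBounded W) (h : TendstoForm W φs Ψ G)
    (hψ : IsTest ψ) :
    Tendsto (fun k => formB W ψ (testGrad ψ) (φs k) (testGrad (φs k))) atTop
      (𝓝 (formB W ψ (testGrad ψ) Ψ G)) := by
  have hd := fun k => (h.test k).formData hW
  have hp := hψ.formData hW
  have hc : ∀ f : Cfg n → ℂ, Tendsto (fun _ : ℕ => ∫ x, ‖f x - f x‖ ^ 2) atTop (𝓝 0) := by
    intro f; simp
  simp only [formB_eq hW.meas hp h.data, fun k => formB_eq hW.meas hp (hd k)]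
  refine tendsto_finsetSum _ fun s _ => ?_
  exact ((tendsto_finsetSum _ fun i _ => tendsto_finsetSum _ fun a _ =>
      tendsto_integral_conj_mul (fun _ => hp.grad s i a) (hp.grad s i a)
        (fun k => (hd k).grad s i a) (h.data.grad s i a) (hc _) (h.grad s i a)).const_mul
      _).add
    (tendsto_integral_conj_mul (fun _ => hp.pot s) (hp.pot s)
      (fun k => memLp_potB hW.meas ((hd k).val s).1 ((hd k).pot s))
      (memLp_potB hW.meas (h.data.val s).1 (h.data.pot s)) (hc _) (h.potB s))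

theorem TendstoForm.tendsto_formIp (h : TendstoForm W φs Ψ G) (hψ : IsTest ψ) :
    Tendsto (fun k => formIp ψ (φs k)) atTop (𝓝 (formIp ψ Ψ)) :=
  tendsto_finsetSum _ fun s _ => tendsto_integral_conj_mul (fun _ => hψ.memLp s) (hψ.memLp s)
    (fun k => (h.test k).memLp s) (h.data.val s) (by simp) (h.value s)

/-- A minimising sequence converging in mean square converges in the form norm. -/
theorem exists_tendstoForm (hW : FormBounded W)
    (hlow : ∀ φ, IsTest φ → E * normSq φ ≤ energy W φ)
    (hΨ : ∀ s, MemLp (Ψ s) 2) (ht : ∀ k, IsTest (φs k))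
    (hex : Tendsto (fun k => excess W E (φs k)) atTop (𝓝 0))
    (hval : ∀ s, Tendsto (fun k => ∫ x, ‖φs k s x - Ψ s x‖ ^ 2) atTop (𝓝 0)) :
    ∃ G, TendstoForm W φs Ψ G := by
  have hpos : ∀ φ, IsTest φ → 0 ≤ excess W E φ := fun φ h => by
    simp only [excess]; linarith [hlow φ h]
  obtain ⟨C, hC, hk⟩ := kin_le hW E
  set N := fun k => ∑ s, ∫ x, ‖φs k s x - Ψ s x‖ ^ 2 with hN
  have hN0 : Tendsto N atTop (𝓝 0) := by
    simpa [hN] using tendsto_finsetSum (Finset.univ : Finset (Spins n)) fun s _ => hval s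
  -- Differences of late terms are small in the form norm.
  have hd : ∀ k l, IsTest fun s x => φs k s x + (-1 : ℂ) * φs l s x := fun k l =>
    (ht k).add ((ht l).const_mul _)
  have hbound : ∀ k l,
      (∑ s, ∫ x, ∑ i, ∑ a, ‖cfgDeriv i a (φs k s) x - cfgDeriv i a (φs l s) x‖ ^ 2) ≤
          8 * excess W E (φs k) + 8 * excess W E (φs l) + 2 * C * (N k + N l) ∧
        (∑ s, ∫ x, |W x| * ‖φs k s x - φs l s x‖ ^ 2) ≤
          2 * excess W E (φs k) + 2 * excess W E (φs l) + 2 * C * (N k + N l) := by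
    intro k l
    have e1 := excess_add_mul hW (ht k) (ht l) E (-1)
    have e2 := excess_add_mul hW (ht k) (ht l) E 1
    simp only [norm_neg, norm_one, one_pow, one_mul, map_neg, map_one, neg_mul,
      Complex.neg_re] at e1 e2
    have h0 := hpos _ ((ht k).add (ht l))
    have hq : excess W E (fun s x => φs k s x + (-1 : ℂ) * φs l s x) ≤
        2 * excess W E (φs k) + 2 * excess W E (φs l) := by
      simp only [neg_mul, one_mul]
      linarith
    have hn : normSq (fun s x => φs k s x + (-1 : ℂ) * φs l s x) ≤ 2 * (N k + N l) := by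
      simp only [normSq, hN, neg_mul, one_mul, ← sub_eq_add_neg, ← Finset.sum_add_distrib,
        Finset.mul_sum]
      refine Finset.sum_le_sum fun s _ => ?_
      have ia : Integrable fun x => ‖φs k s x - Ψ s x‖ ^ 2 :=
        (((ht k).memLp s).sub (hΨ s)).integrable_norm_pow two_ne_zero
      have ib : Integrable fun x => ‖φs l s x - Ψ s x‖ ^ 2 :=
        (((ht l).memLp s).sub (hΨ s)).integrable_norm_pow two_ne_zero
      rw [← integral_add ia ib, ← integral_const_mul]
      refine integral_mono ((((ht k).memLp s).sub ((ht l).memLp s)).integrable_norm_pow two_ne_zero)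
        ((ia.add ib).const_mul _) fun x => ?_
      have := norm_sub_le (φs k s x - Ψ s x) (φs l s x - Ψ s x)
      rw [sub_sub_sub_cancel_right] at this
      nlinarith [sq_nonneg (‖φs k s x - Ψ s x‖ - ‖φs l s x - Ψ s x‖),
        norm_nonneg (φs k s x - φs l s x)]
    obtain ⟨k1, k2⟩ := hk _ (hd k l)
    have hn' := mul_le_mul_of_nonneg_left hn hC
    have eg : ∀ s, ∫ x, ∑ i, gradSq i (fun x => φs k s x + (-1 : ℂ) * φs l s x) x =
        ∫ x, ∑ i, ∑ a, ‖cfgDeriv i a (φs k s) x - cfgDeriv i a (φs l s) x‖ ^ 2 := by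
      intro s
      refine integral_congr_ae ?_
      filter_upwards [(ht k).cfgDeriv_add_mul (ht l) (-1) s] with x hx
      refine Finset.sum_congr rfl fun i _ => Finset.sum_congr rfl fun a _ => ?_
      show ‖cfgDeriv i a (fun x => φs k s x + (-1 : ℂ) * φs l s x) x‖ ^ 2 = _
      rw [hx i a]
      simp [sub_eq_add_neg]
    simp only [eg] at k1
    simp only [neg_mul, one_mul, ← sub_eq_add_neg] at k2 hq hn'
    constructor <;>
      · simp only [neg_mul, one_mul, ← sub_eq_add_neg] at k1 ⊢
        linarith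
  have hsmall : ∀ ε > 0, ∃ K, ∀ k ≥ K,
      8 * excess W E (φs k) + 2 * C * N k < ε / 2 := by
    intro ε hε
    have := (hex.const_mul 8).add (hN0.const_mul (2 * C))
    rw [mul_zero, mul_zero, add_zero] at this
    exact eventually_atTop.1 (this.eventually (gt_mem_nhds (half_pos hε)))
  have hgrad : ∀ s i a, ∃ g, MemLp g 2 ∧
      Tendsto (fun k => ∫ x, ‖cfgDeriv i a (φs k s) x - g x‖ ^ 2) atTop (𝓝 0) := by
    intro s i a
    refine exists_l2_limit (fun k => (ht k).memLp_deriv s i a) fun ε hε => ?_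
    obtain ⟨K, hK⟩ := hsmall ε hε
    refine ⟨K, fun k hk l hl => ?_⟩
    have hsum : ∫ x, ‖cfgDeriv i a (φs k s) x - cfgDeriv i a (φs l s) x‖ ^ 2 ≤
        ∑ s, ∫ x, ∑ i, ∑ a, ‖cfgDeriv i a (φs k s) x - cfgDeriv i a (φs l s) x‖ ^ 2 := by
      refine le_trans ?_ (Finset.single_le_sum (fun s _ => integral_nonneg fun x => by positivity)
        (Finset.mem_univ s))
      refine integral_mono_of_nonneg (ae_of_all _ fun x => sq_nonneg _) ?_ (ae_of_all _ fun x => ?_)
      · exact integrable_finsetSum _ fun i _ => integrable_finsetSum _ fun a _ =>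
          (((ht k).memLp_deriv s i a).sub ((ht l).memLp_deriv s i a)).integrable_norm_pow
            two_ne_zero
      · exact (Finset.single_le_sum
          (f := fun a => ‖cfgDeriv i a (φs k s) x - cfgDeriv i a (φs l s) x‖ ^ 2)
          (fun _ _ => sq_nonneg _) (Finset.mem_univ a)).trans
          (Finset.single_le_sum
            (f := fun i => ∑ a, ‖cfgDeriv i a (φs k s) x - cfgDeriv i a (φs l s) x‖ ^ 2)
            (fun _ _ => by positivity) (Finset.mem_univ i))
    linarith [(hbound k l).1, hK k hk, hK l hl]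
  choose G hG hGt using hgrad
  have hpot : ∀ s, ∃ p, MemLp p 2 ∧
      Tendsto (fun k => ∫ x, ‖potA W x * φs k s x - p x‖ ^ 2) atTop (𝓝 0) := by
    intro s
    refine exists_l2_limit (fun k => ((ht k).formData hW).pot s) fun ε hε => ?_
    obtain ⟨K, hK⟩ := hsmall ε hε
    refine ⟨K, fun k hk l hl => ?_⟩
    have hsum : ∫ x, ‖potA W x * φs k s x - potA W x * φs l s x‖ ^ 2 ≤
        ∑ s, ∫ x, |W x| * ‖φs k s x - φs l s x‖ ^ 2 := by
      simp only [← mul_sub, norm_mul, mul_pow, norm_potA_sq]
      exact Finset.single_le_sum (f := fun s => ∫ x, |W x| * ‖φs k s x - φs l s x‖ ^ 2)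
        (fun s _ => integral_nonneg fun x => by positivity) (Finset.mem_univ s)
    linarith [(hbound k l).2, hK k hk, hK l hl, hpos _ (ht k), hpos _ (ht l)]
  choose p hp hpt using hpot
  -- The limit of the weighted functions is the weighted limit.
  have hpe : ∀ s, p s =ᵐ[volume] fun x => Vale.Agent.P363.potA W x * Ψ s x := by
    intro s
    obtain ⟨σ, hσ, h1⟩ := exists_subseq_ae (fun k => (ht k).memLp s) (hΨ s) (hval s)
    obtain ⟨τ, hτ, h2⟩ := exists_subseq_ae (fun k => ((ht (σ k)).formData hW).pot s) (hp s)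
      ((hpt s).comp hσ.tendsto_atTop)
    filter_upwards [h1, h2] with x hx hx'
    exact tendsto_nhds_unique hx' ((hx.comp hτ.tendsto_atTop).const_mul _)
  refine ⟨G, ht, ⟨hΨ, hG, fun s => (hp s).ae_eq (hpe s)⟩, hval, hGt, fun s => ?_⟩
  refine (hpt s).congr fun k => integral_congr_ae ?_
  filter_upwards [hpe s] with x hx
  rw [hx, ← mul_sub, norm_mul, mul_pow, norm_potA_sq]

end sequences

/-- The limit of an almost everywhere antisymmetric sequence. -/
theorem limit_antisymm (hΨ : ∀ s, MemLp (Ψ s) 2) {φs : ℕ → Spins n → Cfg n → ℂ}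
    (ht : ∀ k, IsTest (φs k))
    (hval : ∀ s, Tendsto (fun k => ∫ x, ‖φs k s x - Ψ s x‖ ^ 2) atTop (𝓝 0))
    (p : Equiv.Perm (Fin n)) (s : Spins n) :
    ∀ᵐ x : Cfg n, Ψ (s ∘ p) (x ∘ p) = ((Equiv.Perm.sign p : ℤ) : ℂ) * Ψ s x := by
  have hmp : MeasurePreserving (fun x : Cfg n => x ∘ p) := by
    have := (volume_measurePreserving_piCongrLeft (fun _ : Fin n => Space) p).symm _
    have hco : ⇑(MeasurableEquiv.piCongrLeft (fun _ : Fin n => Space) p).symm =
        fun x : Cfg n => x ∘ p := by
      funext x i; rfl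
    rwa [hco] at this
  obtain ⟨σ, hσ, h1⟩ := exists_subseq_ae (fun k => (ht k).memLp s) (hΨ s) (hval s)
  obtain ⟨τ, hτ, h2⟩ := exists_subseq_ae (fun k => (ht (σ k)).memLp (s ∘ p)) (hΨ (s ∘ p))
    ((hval (s ∘ p)).comp hσ.tendsto_atTop)
  filter_upwards [h1, hmp.quasiMeasurePreserving.ae h2] with x hx hx'
  refine tendsto_nhds_unique hx' ?_
  simp only [(ht _).antisymm p s x]
  exact (hx.comp hτ.tendsto_atTop).const_mul _

/-- `GroundStmt`. -/
theorem ground_h1 : FormSpec.GroundStmt := by
  intro n W Ψ hW hΨ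
  obtain ⟨hmem, E, hlow, φs, ht, hen, hval⟩ := hΨ
  have hlow' : ∀ φ, IsTest φ → E * normSq φ ≤ energy W φ := fun φ h => lower_all hlow h
  have hex : Tendsto (fun k => excess W E (φs k)) atTop (𝓝 0) := by
    simp only [excess, (ht _).2, mul_one]
    simpa using hen.sub_const E
  obtain ⟨G, hT⟩ := exists_tendstoForm hW hlow' hmem (fun k => (ht k).1) hex hval
  have hone : normSq Ψ = 1 := by
    refine tendsto_nhds_unique hT.tendsto_normSq ?_
    simp [(ht _).2]
  refine ⟨E, G, hlow', hone, fun s => ⟨hmem s, hT.data.grad s, fun η hη hηc i a => ?_⟩,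
    fun s => ?_, tendsto_nhds_unique (hT.tendsto_energy hW) hen,
    limit_antisymm hmem (fun k => (ht k).1) hval, fun φ hφ => ?_,
    φs, ⟨ht, hval, hT.grad, hT.pot⟩⟩
  · -- weak gradient
    set v : Cfg n := Pi.single i (unit3 a) with hv
    have d1 : MemLp (fun x : Cfg n => ((fderiv ℝ η x v : ℝ) : ℂ)) 2 :=
      (Complex.continuous_ofReal.comp ((hη.continuous_fderiv (by simp)).clm_apply
        continuous_const)).memLp_of_hasCompactSupport
        ((hηc.fderiv_apply ℝ v).comp_left Complex.ofReal_zero)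
    have d2 : MemLp (fun x : Cfg n => ((η x : ℝ) : ℂ)) 2 :=
      (Complex.continuous_ofReal.comp hη.continuous).memLp_of_hasCompactSupport
        (hηc.comp_left Complex.ofReal_zero)
    have c1 := tendsto_integral_conj_mul (fun _ => d1) d1 (fun k => (ht k).1.memLp s) (hmem s)
      (by simp) (hval s)
    have c2 := tendsto_integral_conj_mul (fun _ => d2) d2 (fun k => (ht k).1.memLp_deriv s i a)
      (hT.data.grad s i a) (by simp) (hT.grad s i a)
    simp only [Complex.conj_ofReal, mul_comm ((fderiv ℝ η _ v : ℝ) : ℂ),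
      mul_comm ((η _ : ℝ) : ℂ)] at c1 c2
    refine tendsto_nhds_unique c1 (c2.neg.congr fun k => ?_)
    obtain ⟨K, hK⟩ := (ht k).1.lipschitz s
    exact (lip_ibp_complex hK ((ht k).1.compact s) hη hηc v).symm
  · -- integrability of the potential
    refine ((integrable_pot_cross hW.meas hT.data hT.data s).re).congr (ae_of_all _ fun x => ?_)
    simp [Complex.conj_mul', ← Complex.ofReal_pow]
  · -- the weak equation
    show formB W φ (testGrad φ) Ψ G = (E : ℂ) * formIp φ Ψ
    set β := formB W φ (testGrad φ) Ψ G - (E : ℂ) * formIp φ Ψ with hβ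
    have key : ∀ c : ℂ, 0 ≤ ‖c‖ ^ 2 * excess W E φ + 2 * (conj c * β).re := by
      intro c
      have hlim : Tendsto (fun k => excess W E (fun s x => φs k s x + c * φ s x)) atTop
          (𝓝 (0 + ‖c‖ ^ 2 * excess W E φ + 2 * (conj c * β).re)) := by
        simp only [excess_add_mul hW (ht _).1 hφ E c]
        exact (hex.add_const _).add (((Complex.continuous_re.tendsto _).comp
          (((hT.tendsto_formB hW hφ).sub ((hT.tendsto_formIp hφ).const_mul (E : ℂ))).const_mul
            _)).const_mul 2)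
      rw [zero_add] at hlim
      refine ge_of_tendsto' hlim fun k => ?_
      have := hlow' _ ((ht k).1.add (hφ.const_mul c))
      simp only [excess]; linarith
    by_contra hne
    have hβ0 : β ≠ 0 := sub_ne_zero.2 hne
    have hb : 0 < ‖β‖ ^ 2 := by positivity
    set q := excess W E φ with hq
    set t : ℝ := 1 / (|q| + 1) with ht'
    have h1 := key (((-t : ℝ) : ℂ) * β)
    have e1 : (conj (((-t : ℝ) : ℂ) * β) * β).re = -t * ‖β‖ ^ 2 := by
      rw [map_mul, Complex.conj_ofReal, mul_assoc, Complex.conj_mul', ← Complex.ofReal_pow,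
        ← Complex.ofReal_mul, Complex.ofReal_re]
    have e2 : ‖((-t : ℝ) : ℂ) * β‖ ^ 2 = t ^ 2 * ‖β‖ ^ 2 := by
      rw [norm_mul, mul_pow, Complex.norm_real, Real.norm_eq_abs, sq_abs, neg_sq]
    rw [e1, e2] at h1
    have htpos : 0 < t := by positivity
    have htq : t * q < 1 := by
      rw [ht', div_mul_eq_mul_div, one_mul, div_lt_one (by positivity)]
      linarith [le_abs_self q]
    nlinarith [mul_pos htpos hb, mul_lt_mul_of_pos_left htq (mul_pos htpos hb)]

/-- `GroundConverseStmt`. -/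
theorem ground_converse : FormSpec.GroundConverseStmt := by
  intro n W Ψ E G hW h
  obtain ⟨φs, ha⟩ := h.approx
  have hT : TendstoForm W φs Ψ G :=
    ⟨fun k => (ha.test k).1, ⟨fun s => (h.hasGrad s).memLp, fun s => (h.hasGrad s).memLp_grad,
      fun s => memLp_potA hW.meas (h.hasGrad s).memLp.1 (h.integrable_pot s)⟩,
      ha.value, ha.grad, ha.pot⟩
  refine ⟨fun s => (h.hasGrad s).memLp, E, fun φ hφ hn => ?_, φs, ha.test, ?_, ha.value⟩
  · simpa [hn] using h.lower φ hφ
  · simpa [h.energy_eq] using hT.tendsto_energy hW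

end Vale.Agent.P363
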