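import Vale.Agent.P363.KS.FormSpec

/-!
P363: potentials of `L^{3/2} + L^∞` are infinitesimally bounded by `L⁶` and `L²` norms.
-/

noncomputable section

namespace Vale.Agent.P363

open MeasureTheory Filter
open scoped BigOperators Topology ENNReal

private theorem triple_six : ENNReal.HolderTriple (6 : ℝ≥0∞) 6 3 := by
  constructor
  rw [← ENNReal.toReal_eq_toReal_iff' (by simp) (by simp), ENNReal.toReal_add (by simp) (by simp)]
  simp
  norm_num

private theorem triple_one : ENNReal.HolderTriple (3 / 2 : ℝ≥0∞) 3 1 := by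
  constructor
  rw [← ENNReal.toReal_eq_toReal_iff' (by simp) (by simp),
    ENNReal.toReal_add (by simp) (by simp)]
  simp
  norm_num

/-- Hölder with exponents `3/2`, `6`, `6`. -/
theorem holder_three_halves {α : Type*} {_ : MeasurableSpace α} {μ : Measure α} {a f : α → ℝ}
    (ha : MemLp a (3 / 2) μ) (hf : MemLp f 6 μ) :
    Integrable (fun x => a x * f x ^ 2) μ ∧
      ∫ x, |a x| * f x ^ 2 ∂μ ≤ (eLpNorm a (3 / 2) μ).toReal * (eLpNorm f 6 μ).toReal ^ 2 := by
  have := triple_six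
  have := triple_one
  have h3 : MemLp (f • f) 3 μ := hf.smul hf
  have h1 : MemLp (a • (f • f)) 1 μ := h3.smul ha
  have heq : (fun x => a x * f x ^ 2) = a • (f • f) := by
    ext x; simp [sq, smul_eq_mul]
  have hint : Integrable (fun x => a x * f x ^ 2) μ := by
    rw [heq]; exact memLp_one_iff_integrable.1 h1
  refine ⟨hint, ?_⟩
  have hle : eLpNorm (a • (f • f)) 1 μ ≤
      eLpNorm a (3 / 2) μ * (eLpNorm f 6 μ * eLpNorm f 6 μ) := by
    refine (eLpNorm_smul_le_mul_eLpNorm (p := 3 / 2) (q := 3) (r := 1) h3.1 ha.1).trans ?_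
    gcongr
    exact eLpNorm_smul_le_mul_eLpNorm (p := 6) (q := 6) (r := 3) hf.1 hf.1
  have hn : ∫ x, |a x| * f x ^ 2 ∂μ = ∫ x, ‖(a • (f • f)) x‖ ∂μ := by
    congr 1; ext x
    simp [smul_eq_mul, Real.norm_eq_abs, sq]
  rw [hn, integral_norm_eq_lintegral_enorm h1.1, ← eLpNorm_one_eq_lintegral_enorm]
  refine (ENNReal.toReal_mono ?_ hle).trans_eq ?_
  · exact ENNReal.mul_ne_top ha.eLpNorm_ne_top (ENNReal.mul_ne_top hf.eLpNorm_ne_top hf.eLpNorm_ne_top)
  · rw [ENNReal.toReal_mul, ENNReal.toReal_mul, sq]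

/-- `HolderStmt`. -/
theorem holder_inV : FormSpec.HolderStmt := by
  intro v hv ε hε
  obtain ⟨v₁, v₂, h₁, h₂, rfl⟩ := hv
  set u := h₁.1.mk v₁ with hu
  have hu1 : MemLp u (3 / 2) := h₁.ae_eq h₁.1.ae_eq_mk
  obtain ⟨M, hM⟩ := hu1.eLpNorm_indicator_norm_ge_le h₁.1.stronglyMeasurable_mk hε
  set a := {x | M ≤ ‖u x‖₊}.indicator u with ha
  have ham : MeasurableSet {x | M ≤ ‖u x‖₊} :=
    measurableSet_le measurable_const h₁.1.stronglyMeasurable_mk.measurable.nnnorm.coe_nnreal_real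
  have ha1 : MemLp a (3 / 2) := hu1.indicator ham
  set B := (eLpNormEssSup v₂ volume).toReal with hB
  have hB' : ∀ᵐ x : Space, |v₂ x| ≤ B := by
    filter_upwards [ae_le_eLpNormEssSup (f := v₂) (μ := volume)] with x hx
    have hfin : eLpNormEssSup v₂ volume ≠ ∞ := by
      have := h₂.eLpNorm_ne_top
      rwa [eLpNorm_exponent_top] at this
    have := ENNReal.toReal_mono hfin hx
    simpa [toReal_enorm, Real.norm_eq_abs] using this
  have hC : 0 ≤ max (M : ℝ) 0 + B := add_nonneg (le_max_right _ _) ENNReal.toReal_nonneg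
  refine ⟨_, hC, fun f hf2 hf6 => ?_⟩
  obtain ⟨hai, hab⟩ := holder_three_halves ha1 hf6
  have hsq : Integrable (fun x => f x ^ 2) := hf2.integrable_sq
  have hpt : ∀ᵐ x : Space, |(v₁ + v₂) x| * f x ^ 2 ≤
      |a x| * f x ^ 2 + (max (M : ℝ) 0 + B) * f x ^ 2 := by
    filter_upwards [hB', h₁.1.ae_eq_mk] with x hx hx'
    have hx1 : |v₁ x| ≤ |a x| + max (M : ℝ) 0 := by
      by_cases h : x ∈ {x | M ≤ ‖u x‖₊}
      · rw [ha, Set.indicator_of_mem h, hx']; exact le_add_of_nonneg_right (le_max_right _ _)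
      · rw [ha, Set.indicator_of_notMem h, hx', abs_zero, zero_add]
        have : ‖u x‖₊ < M := not_le.1 h
        exact (le_of_lt (by exact_mod_cast this : ‖u x‖ < (M : ℝ))).trans (le_max_left _ _)
    have : |(v₁ + v₂) x| ≤ |a x| + (max (M : ℝ) 0 + B) :=
      (abs_add_le _ _).trans (by linarith)
    calc |(v₁ + v₂) x| * f x ^ 2 ≤ (|a x| + (max (M : ℝ) 0 + B)) * f x ^ 2 :=
          mul_le_mul_of_nonneg_right this (sq_nonneg _)
      _ = _ := add_mul _ _ _
  have hai' : Integrable (fun x => |a x| * f x ^ 2) := by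
    refine hai.norm.congr (ae_of_all _ fun x => ?_)
    simp [Real.norm_eq_abs]
  have hR : Integrable (fun x => |a x| * f x ^ 2 + (max (M : ℝ) 0 + B) * f x ^ 2) :=
    hai'.add (hsq.const_mul _)
  have hvi : Integrable (fun x => (v₁ + v₂) x * f x ^ 2) := by
    refine hR.mono' ((h₁.1.add h₂.1).mul (hf2.1.pow 2)) ?_
    filter_upwards [hpt] with x hx
    simpa [abs_mul, Real.norm_eq_abs] using hx
  refine ⟨hvi, ?_⟩
  calc ∫ x, |(v₁ + v₂) x| * f x ^ 2
      ≤ ∫ x, (|a x| * f x ^ 2 + (max (M : ℝ) 0 + B) * f x ^ 2) := by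
        refine integral_mono_ae ?_ hR hpt
        refine hvi.norm.congr (ae_of_all _ fun x => ?_)
        simp [Real.norm_eq_abs]
    _ = (∫ x, |a x| * f x ^ 2) + (max (M : ℝ) 0 + B) * ∫ x, f x ^ 2 := by
        rw [integral_add hai' (hsq.const_mul _), integral_const_mul]
    _ ≤ _ := by
        refine add_le_add (hab.trans ?_) le_rfl
        refine mul_le_mul_of_nonneg_right ?_ (sq_nonneg _)
        exact ENNReal.toReal_le_of_le_ofReal hε.le hM

end Vale.Agent.P363
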