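import Vale.Agent.P363.KS.FormSpec

/-!
P363: sequences converging in mean square.
-/

noncomputable section

namespace Vale.Agent.P363

open MeasureTheory Filter
open scoped BigOperators Topology ComplexConjugate ENNReal

variable {α : Type*} {mα : MeasurableSpace α} {μ : Measure α}

theorem toLp_norm_sq {f : α → ℂ} (hf : MemLp f 2 μ) :
    ‖hf.toLp f‖ ^ 2 = ∫ x, ‖f x‖ ^ 2 ∂μ := by
  rw [Lp.norm_toLp, hf.eLpNorm_eq_integral_rpow_norm (by norm_num) (by norm_num)]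
  have hnn : 0 ≤ ∫ x, ‖f x‖ ^ 2 ∂μ := integral_nonneg fun x => sq_nonneg _
  have he : ∫ x, ‖f x‖ ^ (2 : ℝ≥0∞).toReal ∂μ = ∫ x, ‖f x‖ ^ 2 ∂μ :=
    integral_congr_ae (ae_of_all _ fun x => by simp)
  rw [he, ENNReal.toReal_ofReal (Real.rpow_nonneg hnn _), ← Real.rpow_natCast _ 2,
    ← Real.rpow_mul hnn]
  norm_num

theorem toLp_dist_sq {f g : α → ℂ} (hf : MemLp f 2 μ) (hg : MemLp g 2 μ) :
    dist (hf.toLp f) (hg.toLp g) ^ 2 = ∫ x, ‖f x - g x‖ ^ 2 ∂μ := by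
  rw [dist_eq_norm, ← MemLp.toLp_sub hf hg, toLp_norm_sq]
  rfl

theorem tendsto_toLp {f : ℕ → α → ℂ} {g : α → ℂ} (hf : ∀ k, MemLp (f k) 2 μ) (hg : MemLp g 2 μ)
    (h : Tendsto (fun k => ∫ x, ‖f k x - g x‖ ^ 2 ∂μ) atTop (𝓝 0)) :
    Tendsto (fun k => (hf k).toLp (f k)) atTop (𝓝 (hg.toLp g)) := by
  rw [tendsto_iff_dist_tendsto_zero]
  have h1 := (Real.continuous_sqrt.tendsto 0).comp h
  rw [Real.sqrt_zero] at h1
  refine h1.congr fun k => ?_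
  rw [Function.comp_apply, ← toLp_dist_sq (hf k) hg, Real.sqrt_sq dist_nonneg]

/-- Completeness. -/
theorem exists_l2_limit {f : ℕ → α → ℂ} (hf : ∀ k, MemLp (f k) 2 μ)
    (h : ∀ ε > 0, ∃ N, ∀ k ≥ N, ∀ l ≥ N, ∫ x, ‖f k x - f l x‖ ^ 2 ∂μ < ε) :
    ∃ g, MemLp g 2 μ ∧ Tendsto (fun k => ∫ x, ‖f k x - g x‖ ^ 2 ∂μ) atTop (𝓝 0) := by
  have hc : CauchySeq fun k => (hf k).toLp (f k) := by
    rw [Metric.cauchySeq_iff]
    intro ε hε
    obtain ⟨N, hN⟩ := h (ε ^ 2) (by positivity)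
    refine ⟨N, fun k hk l hl => ?_⟩
    have := hN k hk l hl
    rw [← toLp_dist_sq (hf k) (hf l)] at this
    exact abs_lt_of_sq_lt_sq this hε.le |> fun h' => lt_of_abs_lt h'
  obtain ⟨g, hg⟩ := cauchySeq_tendsto_of_complete hc
  refine ⟨g, Lp.memLp g, ?_⟩
  rw [tendsto_iff_dist_tendsto_zero] at hg
  have h1 := hg.pow 2
  rw [zero_pow two_ne_zero] at h1
  refine h1.congr fun k => ?_
  rw [← toLp_dist_sq (hf k) (Lp.memLp g), Lp.toLp_coeFn]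

/-- Scalar products converge. -/
theorem tendsto_integral_conj_mul {f g : ℕ → α → ℂ} {F G : α → ℂ}
    (hf : ∀ k, MemLp (f k) 2 μ) (hF : MemLp F 2 μ)
    (hg : ∀ k, MemLp (g k) 2 μ) (hG : MemLp G 2 μ)
    (hfF : Tendsto (fun k => ∫ x, ‖f k x - F x‖ ^ 2 ∂μ) atTop (𝓝 0))
    (hgG : Tendsto (fun k => ∫ x, ‖g k x - G x‖ ^ 2 ∂μ) atTop (𝓝 0)) :
    Tendsto (fun k => ∫ x, conj (f k x) * g k x ∂μ) atTop (𝓝 (∫ x, conj (F x) * G x ∂μ)) := by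
  have key : ∀ {a b : α → ℂ} (ha : MemLp a 2 μ) (hb : MemLp b 2 μ),
      inner ℂ (ha.toLp a) (hb.toLp b) = ∫ x, conj (a x) * b x ∂μ := by
    intro a b ha hb
    rw [MeasureTheory.L2.inner_def]
    refine integral_congr_ae ?_
    filter_upwards [ha.coeFn_toLp, hb.coeFn_toLp] with x h1 h2
    rw [h1, h2, RCLike.inner_apply]
    ring
  have := (tendsto_toLp hf hF hfF).inner (tendsto_toLp hg hG hgG) (𝕜 := ℂ)
  simpa only [key] using this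

theorem tendsto_integral_sq {f : ℕ → α → ℂ} {F : α → ℂ} (hf : ∀ k, MemLp (f k) 2 μ)
    (hF : MemLp F 2 μ) (hfF : Tendsto (fun k => ∫ x, ‖f k x - F x‖ ^ 2 ∂μ) atTop (𝓝 0)) :
    Tendsto (fun k => ∫ x, ‖f k x‖ ^ 2 ∂μ) atTop (𝓝 (∫ x, ‖F x‖ ^ 2 ∂μ)) := by
  have := ((tendsto_toLp hf hF hfF).norm).pow 2
  simpa only [toLp_norm_sq] using this

/-- A subsequence converging almost everywhere. -/
theorem exists_subseq_ae {f : ℕ → α → ℂ} {F : α → ℂ} (hf : ∀ k, MemLp (f k) 2 μ)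
    (hF : MemLp F 2 μ) (hfF : Tendsto (fun k => ∫ x, ‖f k x - F x‖ ^ 2 ∂μ) atTop (𝓝 0)) :
    ∃ σ : ℕ → ℕ, StrictMono σ ∧ ∀ᵐ x ∂μ, Tendsto (fun k => f (σ k) x) atTop (𝓝 (F x)) := by
  have h := tendsto_toLp hf hF hfF
  have hm := tendstoInMeasure_of_tendsto_Lp h
  have hm' : TendstoInMeasure μ f atTop F := hm.congr (fun k => (hf k).coeFn_toLp) hF.coeFn_toLp
  exact hm'.exists_seq_tendsto_ae

end Vale.Agent.P363
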