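import Vale.Agent.P363.KS.FormHolder
import Vale.Agent.P363.KS.FormLip

/-!
P363: one-body potentials of `L^{3/2} + L^∞` are infinitesimally form bounded, given the Sobolev
inequality with exponent six.
-/

noncomputable section

namespace Vale.Agent.P363

open MeasureTheory Filter
open scoped BigOperators Topology ENNReal

theorem eLpNorm_six_sq {f : Space → ℝ} (h : MemLp f 6) :
    (eLpNorm f 6 volume).toReal ^ 2 = (∫ x, |f x| ^ 6) ^ ((1 : ℝ) / 3) := by
  rw [h.eLpNorm_eq_integral_rpow_norm (by norm_num) (by norm_num)]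
  have hnn : 0 ≤ ∫ x, |f x| ^ 6 := integral_nonneg fun x => by positivity
  have he : ∫ x, ‖f x‖ ^ (6 : ℝ≥0∞).toReal = ∫ x, |f x| ^ 6 := by
    refine integral_congr_ae (ae_of_all _ fun x => ?_)
    simp [Real.norm_eq_abs]
  rw [he, ENNReal.toReal_ofReal (Real.rpow_nonneg hnn _), ← Real.rpow_natCast _ 2,
    ← Real.rpow_mul hnn]
  norm_num

/-- `WeakBoundStmt`. -/
theorem weakBound_inV (hS : SobolevSixStmt) : FormSpec.WeakBoundStmt := by
  intro v hv ε hε
  obtain ⟨S, hS0, hS⟩ := hS
  obtain ⟨C, hC, hb⟩ := holder_inV v hv (ε / S) (div_pos hε hS0)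
  refine ⟨C, hC, fun f g hf hg hw => ?_⟩
  obtain ⟨h6, hle⟩ := hS f g ⟨hf, hg, hw⟩
  obtain ⟨hi, hb⟩ := hb f hf h6
  refine ⟨hi, hb.trans (add_le_add ?_ le_rfl)⟩
  rw [eLpNorm_six_sq h6]
  calc ε / S * (∫ x, |f x| ^ 6) ^ ((1 : ℝ) / 3) ≤ ε / S * (S * dirichlet g) :=
        mul_le_mul_of_nonneg_left hle (by positivity)
    _ = ε * ∑ a, ∫ x, g a x ^ 2 := by rw [dirichlet]; field_simp

/-- The bound for complex Lipschitz functions of compact support on space. -/
theorem space_lip_bound (hS : SobolevSixStmt) {v : Space → ℝ} (hv : InV v) {ε : ℝ} (hε : 0 < ε) :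
    ∃ C : ℝ, 0 ≤ C ∧ ∀ (f : Space → ℂ) (K : NNReal), LipschitzWith K f → HasCompactSupport f →
      Integrable (fun x => v x * ‖f x‖ ^ 2) ∧
      ∫ x, |v x| * ‖f x‖ ^ 2 ≤
        ε * (∫ x, ∑ a, ‖fderiv ℝ f x (unit3 a)‖ ^ 2) + C * ∫ x, ‖f x‖ ^ 2 := by
  obtain ⟨C, hC, hb⟩ := weakBound_inV hS v hv ε hε
  refine ⟨C, hC, fun f K hK hc => ?_⟩
  have hre : LipschitzWith (‖Complex.reCLM‖₊ * K) fun x => (f x).re :=
    Complex.reCLM.lipschitz.comp hK
  have him : LipschitzWith (‖Complex.imCLM‖₊ * K) fun x => (f x).im :=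
    Complex.imCLM.lipschitz.comp hK
  have hrc : HasCompactSupport fun x => (f x).re := hc.comp_left (g := Complex.re) rfl
  have hic : HasCompactSupport fun x => (f x).im := hc.comp_left (g := Complex.im) rfl
  obtain ⟨i1, b1⟩ := hb _ _ (isH1_of_lip hre hrc).memLp (isH1_of_lip hre hrc).grad_memLp
    (isH1_of_lip hre hrc).weak
  obtain ⟨i2, b2⟩ := hb _ _ (isH1_of_lip him hic).memLp (isH1_of_lip him hic).grad_memLp
    (isH1_of_lip him hic).weak
  have hsq : ∀ x, ‖f x‖ ^ 2 = (f x).re ^ 2 + (f x).im ^ 2 := fun x => by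
    rw [Complex.sq_norm, Complex.normSq_apply]; ring
  have hi : Integrable fun x => v x * ‖f x‖ ^ 2 := by
    refine (i1.add i2).congr (ae_of_all _ fun x => ?_)
    simp only [Pi.add_apply, hsq]; ring
  refine ⟨hi, ?_⟩
  have j1 : Integrable fun x => |v x| * (f x).re ^ 2 := by
    refine i1.norm.congr (ae_of_all _ fun x => ?_)
    simp [Real.norm_eq_abs]
  have j2 : Integrable fun x => |v x| * (f x).im ^ 2 := by
    refine i2.norm.congr (ae_of_all _ fun x => ?_)
    simp [Real.norm_eq_abs]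
  have hd : ∀ a, ∀ᵐ x : Space, ‖fderiv ℝ f x (unit3 a)‖ ^ 2 =
      deriv3 a (fun x => (f x).re) x ^ 2 + deriv3 a (fun x => (f x).im) x ^ 2 := by
    intro a
    filter_upwards [hK.ae_differentiableAt] with x hx
    have h1 : fderiv ℝ (fun x => (f x).re) x = Complex.reCLM.comp (fderiv ℝ f x) :=
      (Complex.reCLM.hasFDerivAt.comp x hx.hasFDerivAt).fderiv
    have h2 : fderiv ℝ (fun x => (f x).im) x = Complex.imCLM.comp (fderiv ℝ f x) :=
      (Complex.imCLM.hasFDerivAt.comp x hx.hasFDerivAt).fderiv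
    simp only [deriv3, h1, h2, ContinuousLinearMap.comp_apply, Complex.reCLM_apply,
      Complex.imCLM_apply]
    rw [Complex.sq_norm, Complex.normSq_apply]; ring
  have hq : ∀ a, Integrable fun x => deriv3 a (fun x => (f x).re) x ^ 2 :=
    fun a => ((isH1_of_lip hre hrc).grad_memLp a).integrable_sq
  have hq' : ∀ a, Integrable fun x => deriv3 a (fun x => (f x).im) x ^ 2 :=
    fun a => ((isH1_of_lip him hic).grad_memLp a).integrable_sq
  have hgr : ∫ x, (∑ a, ‖fderiv ℝ f x (unit3 a)‖ ^ 2) =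
      ∑ a, ((∫ x, deriv3 a (fun x => (f x).re) x ^ 2) +
        ∫ x, deriv3 a (fun x => (f x).im) x ^ 2) := by
    have hE : (fun x => ∑ a, ‖fderiv ℝ f x (unit3 a)‖ ^ 2) =ᵐ[volume] fun x =>
        ∑ a, (deriv3 a (fun x => (f x).re) x ^ 2 + deriv3 a (fun x => (f x).im) x ^ 2) := by
      filter_upwards [ae_all_iff.2 hd] with x hx
      exact Finset.sum_congr rfl fun a _ => hx a
    rw [integral_congr_ae hE,
      integral_finsetSum (f := fun a x =>
          deriv3 a (fun x => (f x).re) x ^ 2 + deriv3 a (fun x => (f x).im) x ^ 2) _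
        fun a _ => (hq a).add (hq' a)]
    exact Finset.sum_congr rfl fun a _ => integral_add (hq a) (hq' a)
  have h0 : ∫ x, ‖f x‖ ^ 2 = (∫ x, (f x).re ^ 2) + ∫ x, (f x).im ^ 2 := by
    rw [← integral_add (isH1_of_lip hre hrc).memLp.integrable_sq
      (isH1_of_lip him hic).memLp.integrable_sq]
    exact integral_congr_ae (ae_of_all _ hsq)
  calc ∫ x, |v x| * ‖f x‖ ^ 2
      = (∫ x, |v x| * (f x).re ^ 2) + ∫ x, |v x| * (f x).im ^ 2 := by
        rw [← integral_add j1 j2]
        exact integral_congr_ae (ae_of_all _ fun x => by simp only [hsq]; ring)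
    _ ≤ _ := add_le_add b1 b2
    _ = _ := by rw [hgr, h0, Finset.sum_add_distrib]; ring

variable {k : ℕ}

theorem integrable_gradSq {n : ℕ} (i : Fin n) {f : Cfg n → ℂ} {K : NNReal}
    (hK : LipschitzWith K f) (hc : HasCompactSupport f) : Integrable fun x => gradSq i f x :=
  integrable_finsetSum _ fun a _ =>
    (memLp_fderiv_apply hK hc (Pi.single i (unit3 a)) 2).integrable_norm_pow (p := 2) two_ne_zero

theorem aesm_eval {n : ℕ} (i : Fin n) {v : Space → ℝ} (hv : AEStronglyMeasurable v) :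
    AEStronglyMeasurable (fun x : Cfg n => v (x i)) :=
  hv.comp_quasiMeasurePreserving (Measure.quasiMeasurePreserving_eval _ i)

/-- The potential felt by one electron. -/
theorem single_bound (hS : SobolevSixStmt) {v : Space → ℝ} (hv : InV v) {ε : ℝ} (hε : 0 < ε) :
    ∃ C : ℝ, 0 ≤ C ∧ ∀ (k : ℕ) (i : Fin (k + 1)) (f : Cfg (k + 1) → ℂ), IsLipTest f →
      Integrable (fun x => v (x i) * ‖f x‖ ^ 2) ∧
      ∫ x, |v (x i)| * ‖f x‖ ^ 2 ≤ ε * (∫ x, gradSq i f x) + C * ∫ x, ‖f x‖ ^ 2 := by
  obtain ⟨C, hC, hb⟩ := space_lip_bound hS hv hε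
  refine ⟨C, hC, fun k i f ⟨⟨K, hK⟩, hc⟩ => ?_⟩
  have hvm : AEStronglyMeasurable v := by
    obtain ⟨v₁, v₂, h₁, h₂, rfl⟩ := hv
    exact h₁.1.add h₂.1
  have hq : Integrable fun x => gradSq i f x := integrable_gradSq i hK hc
  have hn : Integrable fun x => ‖f x‖ ^ 2 :=
    (hK.continuous.memLp_of_hasCompactSupport (p := 2) hc).integrable_norm_pow two_ne_zero
  have hR : Integrable fun x => ε * gradSq i f x + C * ‖f x‖ ^ 2 :=
    (hq.const_mul ε).add (hn.const_mul C)
  have hm : AEStronglyMeasurable fun x => v (x i) * ‖f x‖ ^ 2 :=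
    (aesm_eval i hvm).mul ((hK.continuous.norm.pow 2).aestronglyMeasurable)
  have he := ((volume_preserving_piFinSuccAbove (fun _ : Fin (k + 1) => Space) i).symm _)
  have hRp := (he.integrable_comp_emb (MeasurableEquiv.measurableEmbedding _)).2 hR
  rw [Measure.volume_eq_prod] at hRp
  have hsl : ∀ᵐ y : Cfg k, Integrable (fun r => v r * ‖f (i.insertNth r y)‖ ^ 2) ∧
      ∫ r, |v r| * ‖f (i.insertNth r y)‖ ^ 2 ≤
        ∫ r, (ε * gradSq i f (i.insertNth r y) + C * ‖f (i.insertNth r y)‖ ^ 2) := by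
    filter_upwards [ae_slice i hK.ae_differentiableAt] with y hy
    obtain ⟨hLy, hcy⟩ := slice_lip i hK hc y
    obtain ⟨h1, h2⟩ := hb _ K hLy hcy
    refine ⟨h1, h2.trans_eq ?_⟩
    have e1 : (fun r => ∑ a, ‖fderiv ℝ (fun r => f (i.insertNth r y)) r (unit3 a)‖ ^ 2)
        =ᵐ[volume] fun r => gradSq i f (i.insertNth r y) := by
      filter_upwards [hy] with r hr
      refine Finset.sum_congr rfl fun a _ => ?_
      rw [fderiv_slice i r y hr]; rfl
    have i1 : Integrable fun r => gradSq i f (i.insertNth r y) :=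
      (integrable_finsetSum _ fun a _ =>
        (memLp_fderiv_apply (μ := volume) hLy hcy (unit3 a) 2).integrable_norm_pow
          two_ne_zero).congr e1
    have i2 : Integrable fun r => ‖f (i.insertNth r y)‖ ^ 2 :=
      (hLy.continuous.memLp_of_hasCompactSupport (p := 2) hcy).integrable_norm_pow two_ne_zero
    rw [integral_congr_ae e1, integral_add (i1.const_mul ε) (i2.const_mul C),
      integral_const_mul, integral_const_mul]
  have hint : Integrable fun x => v (x i) * ‖f x‖ ^ 2 := by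
    rw [← he.integrable_comp_emb (MeasurableEquiv.measurableEmbedding _)]
    rw [Measure.volume_eq_prod]
    refine (integrable_prod_iff' ?_).2 ⟨?_, ?_⟩
    · rw [← Measure.volume_eq_prod]
      exact hm.comp_quasiMeasurePreserving he.quasiMeasurePreserving
    · filter_upwards [hsl] with y hy
      refine hy.1.congr (ae_of_all _ fun r => ?_)
      show v r * _ = v ((i.insertNth r y : Cfg (k + 1)) i) * _
      rw [Fin.insertNth_apply_same]
      rfl
    · refine hRp.integral_prod_right.mono' ?_ ?_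
      · have hm' : AEStronglyMeasurable ((fun x : Cfg (k + 1) => v (x i) * ‖f x‖ ^ 2) ∘
            (MeasurableEquiv.piFinSuccAbove (fun _ => Space) i).symm)
            (volume : Measure (Space × Cfg k)) :=
          hm.comp_quasiMeasurePreserving he.quasiMeasurePreserving
        rw [Measure.volume_eq_prod] at hm'
        exact hm'.norm.prod_swap.integral_prod_right'
      · filter_upwards [hsl] with y hy
        rw [Real.norm_of_nonneg (integral_nonneg fun r => norm_nonneg _)]
        refine (le_of_eq ?_).trans hy.2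
        refine integral_congr_ae (ae_of_all _ fun r => ?_)
        show ‖v ((i.insertNth r y : Cfg (k + 1)) i) * ‖f (i.insertNth r y)‖ ^ 2‖ = _
        simp [Real.norm_eq_abs]
  refine ⟨hint, ?_⟩
  have habs : Integrable fun x => |v (x i)| * ‖f x‖ ^ 2 := by
    refine hint.norm.congr (ae_of_all _ fun x => ?_)
    simp [Real.norm_eq_abs]
  calc ∫ x, |v (x i)| * ‖f x‖ ^ 2
      = ∫ y : Cfg k, ∫ r, |v r| * ‖f (i.insertNth r y)‖ ^ 2 := by
        rw [integral_insertNth i habs]
        simp
    _ ≤ ∫ y : Cfg k, ∫ r, (ε * gradSq i f (i.insertNth r y) + C * ‖f (i.insertNth r y)‖ ^ 2) := by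
        refine integral_mono_of_nonneg (ae_of_all _ fun y => integral_nonneg fun r => ?_)
          hRp.integral_prod_right ?_
        · positivity
        · filter_upwards [hsl] with y hy using hy.2
    _ = ∫ x, (ε * gradSq i f x + C * ‖f x‖ ^ 2) := (integral_insertNth i hR).symm
    _ = _ := by
        rw [integral_add (hq.const_mul ε) (hn.const_mul C), integral_const_mul, integral_const_mul]

/-- `OneBodyStmt`. -/
theorem oneBody_formBounded (hS : SobolevSixStmt) : FormSpec.OneBodyStmt := by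
  intro n v hv
  have hvm : AEStronglyMeasurable v := by
    obtain ⟨v₁, v₂, h₁, h₂, rfl⟩ := hv
    exact h₁.1.add h₂.1
  have hm : AEStronglyMeasurable (oneBody (n := n) v) := by
    have : oneBody (n := n) v = ∑ i, fun x : Cfg n => v (x i) := by
      funext x; simp [oneBody]
    rw [this]
    exact Finset.aestronglyMeasurable_sum _ fun i _ => aesm_eval i hvm
  cases n with
  | zero =>
    refine ⟨hm, fun f _ => ?_, fun ε hε => ⟨0, le_rfl, fun f _ => ?_⟩⟩
    · simp [oneBody]
    · simp [oneBody]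
  | succ k =>
    have hint : ∀ f, IsLipTest f → ∀ i, Integrable fun x : Cfg (k + 1) => v (x i) * ‖f x‖ ^ 2 := by
      intro f hf i
      obtain ⟨C, -, hb⟩ := single_bound hS hv one_pos
      exact (hb k i f hf).1
    have habs : ∀ f, IsLipTest f → ∀ i,
        Integrable fun x : Cfg (k + 1) => |v (x i)| * ‖f x‖ ^ 2 := by
      intro f hf i
      refine (hint f hf i).norm.congr (ae_of_all _ fun x => ?_)
      simp [Real.norm_eq_abs]
    refine ⟨hm, fun f hf => ?_, fun ε hε => ?_⟩
    · simp only [oneBody, Finset.sum_mul]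
      exact integrable_finsetSum _ fun i _ => hint f hf i
    · obtain ⟨C, hC, hb⟩ := single_bound hS hv hε
      refine ⟨(k + 1 : ℕ) * C, by positivity, fun f hf => ?_⟩
      obtain ⟨⟨K, hK⟩, hc⟩ := id hf
      calc ∫ x, |oneBody v x| * ‖f x‖ ^ 2
          ≤ ∫ x : Cfg (k + 1), ∑ i, |v (x i)| * ‖f x‖ ^ 2 := by
            refine integral_mono_of_nonneg (ae_of_all _ fun x => by positivity)
              (integrable_finsetSum _ fun i _ => habs f hf i) (ae_of_all _ fun x => ?_)
            simp only [← Finset.sum_mul, oneBody]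
            exact mul_le_mul_of_nonneg_right (Finset.abs_sum_le_sum_abs _ _) (sq_nonneg _)
        _ = ∑ i : Fin (k + 1), ∫ x, |v (x i)| * ‖f x‖ ^ 2 :=
            integral_finsetSum _ fun i _ => habs f hf i
        _ ≤ ∑ i : Fin (k + 1), (ε * (∫ x, gradSq i f x) + C * ∫ x, ‖f x‖ ^ 2) :=
            Finset.sum_le_sum fun i _ => (hb k i f hf).2
        _ = _ := by
            rw [Finset.sum_add_distrib, ← Finset.mul_sum,
              integral_finsetSum _ fun i _ => integrable_gradSq i hK hc, Finset.sum_const,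
              Finset.card_univ, Fintype.card_fin, nsmul_eq_mul, mul_assoc]

end Vale.Agent.P363
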