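import Vale.Agent.P363.KS.FormDefs

/-!
P363: the statements exported by the module `KS/Form`, `KS/Symmetrise` and `KS/Scale`.
-/

noncomputable section

namespace Vale.Agent.P363.FormSpec

open MeasureTheory Filter
open scoped BigOperators Topology ENNReal

/-- Potentials of the class are infinitesimally bounded by `L²` and `L⁶` norms. -/
def HolderStmt : Prop :=
  ∀ v : Space → ℝ, InV v → ∀ ε : ℝ, 0 < ε → ∃ C : ℝ, 0 ≤ C ∧
    ∀ f : Space → ℝ, MemLp f 2 → MemLp f 6 →
      Integrable (fun x => v x * f x ^ 2) ∧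
      ∫ x, |v x| * f x ^ 2 ≤ ε * (eLpNorm f 6 volume).toReal ^ 2 + C * ∫ x, f x ^ 2

/-- The same bound on `H¹(ℝ³)`. -/
def WeakBoundStmt : Prop :=
  ∀ v : Space → ℝ, InV v → ∀ ε : ℝ, 0 < ε → ∃ C : ℝ, 0 ≤ C ∧
    ∀ (f : Space → ℝ) (g : Fin 3 → Space → ℝ), MemLp f 2 → (∀ a, MemLp (g a) 2) →
      HasWeakGrad Set.univ f g →
      Integrable (fun x => v x * f x ^ 2) ∧
      ∫ x, |v x| * f x ^ 2 ≤ ε * (∑ a, ∫ x, g a x ^ 2) + C * ∫ x, f x ^ 2

/-- One-body potentials of the class are form bounded for any particle number. -/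
def OneBodyStmt : Prop :=
  ∀ (n : ℕ) (v : Space → ℝ), InV v → FormBounded (oneBody (n := n) v)

/-- Ground states are in `H¹`, with energy identity and weak equation. -/
def GroundStmt : Prop :=
  ∀ (n : ℕ) (W : Cfg n → ℝ) (Ψ : Spins n → Cfg n → ℂ), FormBounded W → IsGroundState W Ψ →
    ∃ E G, GroundH1 W Ψ E G

/-- A normalised form-norm limit of tests reaching the lower bound is a ground state. -/
def GroundConverseStmt : Prop :=
  ∀ (n : ℕ) (W : Cfg n → ℝ) (Ψ : Spins n → Cfg n → ℂ) (E : ℝ)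
    (G : Spins n → Fin n → Fin 3 → Cfg n → ℂ), FormBounded W → GroundH1 W Ψ E G →
    IsGroundState W Ψ

/-- Isometries of space move ground states. -/
def MoveStmt : Prop :=
  ∀ (n : ℕ) (g : Space ≃ₗᵢ[ℝ] Space) (W : Cfg n → ℝ) (Ψ : Spins n → Cfg n → ℂ),
    IsGroundState W Ψ → IsGroundState (fun x => W fun i => g (x i)) (moveCfg g Ψ)

/-- A symmetric representable density has a symmetric representing potential. -/
def SymmetriseStmt : Prop :=
  ∀ (m : ℕ) (ρ : Space → ℝ≥0∞), AxialSymAE ρ → Representable m ρ →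
    ∃ (v : Space → ℝ) (w : ℕ → ℝ≥0∞) (Φ : ℕ → Spins (m + 1) → Cfg (m + 1) → ℂ),
      InV v ∧ Measurable v ∧ AxialSym v ∧ ∑' k, w k = 1 ∧
      (∀ k, IsGroundState (oneBody v) (Φ k)) ∧
      ρ =ᵐ[volume] fun r => ∑' k, w k * density (Φ k) r

/-- Dilations of ground states. -/
def ScaleStmt : Prop :=
  ∀ (n : ℕ) (c : ℝ) (W : Cfg n → ℝ) (Ψ : Spins n → Cfg n → ℂ), 0 < c →
    IsGroundState W Ψ → IsGroundState (scalePot c W) (scaleCfg c Ψ)

/-- Representability does not depend on the unit of length. -/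
def RepresentableScaleStmt : Prop :=
  ∀ (m : ℕ) (c : ℝ) (ρ : Space → ℝ≥0∞), 0 < c →
    Representable m ρ → Representable m fun r => ENNReal.ofReal (c ^ 3) * ρ (c • r)

/-- A ground state of a scaled molecule with repulsion `1 / Z` and a density that is not
representable gives a counterexample. -/
def ReductionStmt : Prop :=
  ∀ (m M Z : ℕ) (R : Fin M → Space) (Ψ : Spins (m + 1) → Cfg (m + 1) → ℂ),
    0 < M → 1 ≤ Z → Function.Injective R → IsGroundState (scaledMol R (1 / (Z : ℝ))) Ψ →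
    ¬ Representable m (density Ψ) → Counterexample

end Vale.Agent.P363.FormSpec
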