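import Vale.Agent.P363.KS.FormL2
import Vale.Agent.P363.KS.FormLip

/-!
P363: algebra of test wave functions and the sesquilinear form of `∑ i, -Δ_i / 2 + W`.
-/

noncomputable section

namespace Vale.Agent.P363

open MeasureTheory Filter
open scoped BigOperators Topology ComplexConjugate ENNReal

variable {n : ℕ} {W : Cfg n → ℝ}

namespace IsTest

variable {φ ψ : Spins n → Cfg n → ℂ}

theorem lipTest (h : IsTest φ) (s : Spins n) : IsLipTest (φ s) := ⟨h.lipschitz s, h.compact s⟩

theorem add (hφ : IsTest φ) (hψ : IsTest ψ) : IsTest (fun s x => φ s x + ψ s x) := by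
  refine ⟨fun s => ?_, fun s => (hφ.compact s).add (hψ.compact s), fun p s x => ?_⟩
  · obtain ⟨K, hK⟩ := hφ.lipschitz s
    obtain ⟨L, hL⟩ := hψ.lipschitz s
    exact ⟨K + L, hK.add hL⟩
  · simp only [hφ.antisymm p s x, hψ.antisymm p s x]; ring

theorem const_mul (hφ : IsTest φ) (c : ℂ) : IsTest (fun s x => c * φ s x) := by
  refine ⟨fun s => ?_, fun s => (hφ.compact s).mul_left, fun p s x => ?_⟩
  · obtain ⟨K, hK⟩ := hφ.lipschitz s
    refine ⟨‖c‖₊ * K, LipschitzWith.of_dist_le_mul fun x y => ?_⟩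
    rw [dist_eq_norm, ← mul_sub, norm_mul, ← dist_eq_norm, NNReal.coe_mul, coe_nnnorm, mul_assoc]
    exact mul_le_mul_of_nonneg_left (hK.dist_le_mul x y) (norm_nonneg c)
  · simp only [hφ.antisymm p s x]; ring

theorem memLp (h : IsTest φ) (s : Spins n) : MemLp (φ s) 2 := by
  obtain ⟨K, hK⟩ := h.lipschitz s
  exact hK.continuous.memLp_of_hasCompactSupport (h.compact s)

theorem memLp_deriv (h : IsTest φ) (s : Spins n) (i : Fin n) (a : Fin 3) :
    MemLp (cfgDeriv i a (φ s)) 2 := by
  obtain ⟨K, hK⟩ := h.lipschitz s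
  exact memLp_fderiv_apply hK (h.compact s) _ _

theorem cfgDeriv_add_mul (hφ : IsTest φ) (hψ : IsTest ψ) (c : ℂ) (s : Spins n) :
    ∀ᵐ x : Cfg n, ∀ (i : Fin n) (a : Fin 3), cfgDeriv i a (fun x => φ s x + c * ψ s x) x =
      cfgDeriv i a (φ s) x + c * cfgDeriv i a (ψ s) x := by
  obtain ⟨K, hK⟩ := hφ.lipschitz s
  obtain ⟨L, hL⟩ := hψ.lipschitz s
  filter_upwards [hK.ae_differentiableAt, hL.ae_differentiableAt] with x hx hx' i a
  have := (hx.hasFDerivAt.add (hx'.hasFDerivAt.const_mul c)).fderiv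
  simp only [cfgDeriv]
  rw [show (fun x => φ s x + c * ψ s x) = (φ s + fun x => c * ψ s x) from rfl, this]
  simp [smul_eq_mul]

end IsTest

/-- The square root of `|W|`. -/
def potA (W : Cfg n → ℝ) (x : Cfg n) : ℂ := ((Real.sqrt |W x| : ℝ) : ℂ)

/-- `W` divided by the square root of `|W|`. -/
def potB (W : Cfg n → ℝ) (x : Cfg n) : ℂ := ((W x / Real.sqrt |W x| : ℝ) : ℂ)

theorem norm_potA_sq (x : Cfg n) : ‖potA W x‖ ^ 2 = |W x| := by
  rw [potA, Complex.norm_real, Real.norm_eq_abs, sq_abs, Real.sq_sqrt (abs_nonneg _)]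

theorem norm_potB (x : Cfg n) : ‖potB W x‖ = ‖potA W x‖ := by
  rw [potA, potB, Complex.norm_real, Complex.norm_real, Real.norm_eq_abs, Real.norm_eq_abs,
    abs_div, abs_of_nonneg (Real.sqrt_nonneg _), Real.div_sqrt]

theorem conj_potA_mul_potB (x : Cfg n) : conj (potA W x) * potB W x = (W x : ℂ) := by
  rw [potA, potB, Complex.conj_ofReal, ← Complex.ofReal_mul]
  rcases eq_or_ne (Real.sqrt |W x|) 0 with h | h
  · have : W x = 0 := abs_eq_zero.1 ((Real.sqrt_eq_zero (abs_nonneg _)).1 h)
    simp [this]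
  · rw [mul_div_cancel₀ _ h]

theorem aesm_potA (hW : AEStronglyMeasurable W) : AEStronglyMeasurable (potA W) :=
  ((hW.aemeasurable.norm.sqrt).complex_ofReal).aestronglyMeasurable.congr
    (ae_of_all _ fun x => by simp [potA, Real.norm_eq_abs])

theorem aesm_potB (hW : AEStronglyMeasurable W) : AEStronglyMeasurable (potB W) :=
  ((hW.aemeasurable.div hW.aemeasurable.norm.sqrt).complex_ofReal).aestronglyMeasurable.congr
    (ae_of_all _ fun x => by simp [potB, Real.norm_eq_abs])

theorem memLp_potA (hW : AEStronglyMeasurable W) {f : Cfg n → ℂ} (hf : AEStronglyMeasurable f)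
    (h : Integrable fun x => W x * ‖f x‖ ^ 2) : MemLp (fun x => potA W x * f x) 2 := by
  refine (memLp_two_iff_integrable_sq_norm ((aesm_potA hW).mul hf)).2 ?_
  refine h.norm.congr (ae_of_all _ fun x => ?_)
  simp [mul_pow, norm_potA_sq]

theorem memLp_potB (hW : AEStronglyMeasurable W) {f : Cfg n → ℂ} (hf : AEStronglyMeasurable f)
    (h : MemLp (fun x => potA W x * f x) 2) : MemLp (fun x => potB W x * f x) 2 :=
  h.of_le ((aesm_potB hW).mul hf) (ae_of_all _ fun x => by simp [norm_potB])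

/-- Wave functions with a gradient in the domain of the form. -/
structure FormData (W : Cfg n → ℝ) (Ψ : Spins n → Cfg n → ℂ)
    (G : Spins n → Fin n → Fin 3 → Cfg n → ℂ) : Prop where
  val : ∀ s, MemLp (Ψ s) 2
  grad : ∀ s i a, MemLp (G s i a) 2
  pot : ∀ s, MemLp (fun x => potA W x * Ψ s x) 2

/-- The gradient of a test. -/
def testGrad (φ : Spins n → Cfg n → ℂ) : Spins n → Fin n → Fin 3 → Cfg n → ℂ :=
  fun s i a => cfgDeriv i a (φ s)

theorem IsTest.formData {φ : Spins n → Cfg n → ℂ} (h : IsTest φ) (hW : FormBounded W) :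
    FormData W φ (testGrad φ) :=
  ⟨h.memLp, h.memLp_deriv,
    fun s => memLp_potA hW.meas (h.memLp s).1 (hW.integrable _ (h.lipTest s))⟩

/-- The integrand of the sesquilinear form. -/
def formJ (W : Cfg n → ℝ) (φ : Spins n → Cfg n → ℂ) (dφ : Spins n → Fin n → Fin 3 → Cfg n → ℂ)
    (ψ : Spins n → Cfg n → ℂ) (dψ : Spins n → Fin n → Fin 3 → Cfg n → ℂ) (s : Spins n)
    (x : Cfg n) : ℂ :=
  (1 / 2 : ℂ) * ∑ i, ∑ a, conj (dφ s i a x) * dψ s i a x + (W x : ℂ) * (conj (φ s x) * ψ s x)

/-- The sesquilinear form. -/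
def formB (W : Cfg n → ℝ) (φ : Spins n → Cfg n → ℂ) (dφ : Spins n → Fin n → Fin 3 → Cfg n → ℂ)
    (ψ : Spins n → Cfg n → ℂ) (dψ : Spins n → Fin n → Fin 3 → Cfg n → ℂ) : ℂ :=
  ∑ s, ∫ x, formJ W φ dφ ψ dψ s x

/-- The scalar product. -/
def formIp (φ ψ : Spins n → Cfg n → ℂ) : ℂ := ∑ s, ∫ x, conj (φ s x) * ψ s x

variable {φ ψ Ψ : Spins n → Cfg n → ℂ} {dφ dψ G : Spins n → Fin n → Fin 3 → Cfg n → ℂ}

theorem integrable_conj_mul {f g : Cfg n → ℂ} (hf : MemLp f 2) (hg : MemLp g 2) :
    Integrable fun x => conj (f x) * g x :=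
  hf.star.integrable_mul hg

theorem conj_pot (x : Cfg n) (u w : ℂ) :
    conj (potA W x * u) * (potB W x * w) = (W x : ℂ) * (conj u * w) := by
  rw [map_mul, ← conj_potA_mul_potB]; ring

theorem integrable_pot_cross (hW : AEStronglyMeasurable W) (h : FormData W φ dφ)
    (h' : FormData W ψ dψ) (s : Spins n) :
    Integrable fun x => (W x : ℂ) * (conj (φ s x) * ψ s x) :=
  (integrable_conj_mul (h.pot s) (memLp_potB hW (h'.val s).1 (h'.pot s))).congr
    (ae_of_all _ fun x => conj_pot x _ _)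

theorem integrable_formJ (hW : AEStronglyMeasurable W) (h : FormData W φ dφ)
    (h' : FormData W ψ dψ) (s : Spins n) : Integrable (formJ W φ dφ ψ dψ s) :=
  ((integrable_finsetSum _ fun i _ => integrable_finsetSum _ fun a _ =>
    integrable_conj_mul (h.grad s i a) (h'.grad s i a)).const_mul _).add
    (integrable_pot_cross hW h h' s)

theorem formB_eq (hW : AEStronglyMeasurable W) (h : FormData W φ dφ) (h' : FormData W ψ dψ) :
    formB W φ dφ ψ dψ = ∑ s, ((1 / 2 : ℂ) * ∑ i, ∑ a, (∫ x, conj (dφ s i a x) * dψ s i a x) +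
      ∫ x, conj (potA W x * φ s x) * (potB W x * ψ s x)) := by
  refine Finset.sum_congr rfl fun s _ => ?_
  unfold formJ
  rw [integral_add ((integrable_finsetSum _ fun i _ => integrable_finsetSum _ fun a _ =>
    integrable_conj_mul (h.grad s i a) (h'.grad s i a)).const_mul _)
      (integrable_pot_cross hW h h' s), integral_const_mul,
    integral_finsetSum _ fun i _ => integrable_finsetSum _ fun a _ =>
      integrable_conj_mul (h.grad s i a) (h'.grad s i a)]
  simp_rw [fun i => integral_finsetSum (Finset.univ : Finset (Fin 3)) fun a _ =>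
    integrable_conj_mul (h.grad s i a) (h'.grad s i a), conj_pot]

/-- The diagonal of the integrand is the energy density. -/
theorem formJ_self (s : Spins n) (x : Cfg n) :
    formJ W Ψ G Ψ G s x =
      (((1 / 2 : ℝ) * ∑ i, ∑ a, ‖G s i a x‖ ^ 2 + W x * ‖Ψ s x‖ ^ 2 : ℝ) : ℂ) := by
  simp only [formJ, Complex.conj_mul']
  push_cast
  ring

theorem energyH_eq : energyH W Ψ G = (formB W Ψ G Ψ G).re := by
  simp only [energyH, formB, formJ_self, integral_complex_ofReal, Complex.re_sum,
    Complex.ofReal_re]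

theorem energy_eq (φ : Spins n → Cfg n → ℂ) : energy W φ = energyH W φ (testGrad φ) := rfl

theorem formIp_self : normSq Ψ = (formIp Ψ Ψ).re := by
  simp only [normSq, formIp, Complex.conj_mul', ← Complex.ofReal_pow, integral_complex_ofReal,
    Complex.re_sum, Complex.ofReal_re]

/-- The energy above the level `E`. -/
def excess (W : Cfg n → ℝ) (E : ℝ) (φ : Spins n → Cfg n → ℂ) : ℝ := energy W φ - E * normSq φ

/-- Expansion of the excess along a line of tests. -/
theorem excess_add_mul (hW : FormBounded W) (hφ : IsTest φ) (hψ : IsTest ψ) (E : ℝ) (c : ℂ) :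
    excess W E (fun s x => φ s x + c * ψ s x) = excess W E φ + ‖c‖ ^ 2 * excess W E ψ +
      2 * (conj c * (formB W ψ (testGrad ψ) φ (testGrad φ) - (E : ℂ) * formIp ψ φ)).re := by
  have dφ := hφ.formData hW
  have dψ := hψ.formData hW
  have iJ := fun s => integrable_formJ hW.meas dψ dφ s
  have iI := fun s => integrable_conj_mul (hψ.memLp s) (hφ.memLp s)
  have e1 : energy W (fun s x => φ s x + c * ψ s x) = energy W φ + ‖c‖ ^ 2 * energy W ψ +
      2 * (conj c * formB W ψ (testGrad ψ) φ (testGrad φ)).re := by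
    simp only [energy_eq, energyH, formB, Finset.mul_sum (a := conj c), Complex.re_sum]
    rw [Finset.mul_sum (a := ‖c‖ ^ 2), Finset.mul_sum (a := (2 : ℝ)), ← Finset.sum_add_distrib,
      ← Finset.sum_add_distrib]
    refine Finset.sum_congr rfl fun s _ => ?_
    rw [← integral_const_mul (‖c‖ ^ 2), ← integral_const_mul (conj c)]
    have hA : Integrable fun x => (1 / 2 : ℝ) * ∑ i, ∑ a, ‖testGrad φ s i a x‖ ^ 2 +
        W x * ‖φ s x‖ ^ 2 := by
      refine (integrable_formJ hW.meas dφ dφ s).re.congr (ae_of_all _ fun x => ?_)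
      simp [formJ_self, -Complex.ofReal_pow]
    have hB : Integrable fun x => (1 / 2 : ℝ) * ∑ i, ∑ a, ‖testGrad ψ s i a x‖ ^ 2 +
        W x * ‖ψ s x‖ ^ 2 := by
      refine (integrable_formJ hW.meas dψ dψ s).re.congr (ae_of_all _ fun x => ?_)
      simp [formJ_self, -Complex.ofReal_pow]
    have hC : Integrable fun x =>
        (conj c * formJ W ψ (testGrad ψ) φ (testGrad φ) s x).re := ((iJ s).const_mul (conj c)).re
    have hre : 2 * (∫ x, conj c * formJ W ψ (testGrad ψ) φ (testGrad φ) s x).re =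
        ∫ x, 2 * (conj c * formJ W ψ (testGrad ψ) φ (testGrad φ) s x).re := by
      rw [← RCLike.re_eq_complex_re, ← integral_re ((iJ s).const_mul (conj c)),
        ← integral_const_mul]
    rw [hre, ← integral_add hA (hB.const_mul _),
      ← integral_add (hA.fun_add (hB.const_mul _)) (hC.const_mul 2)]
    refine integral_congr_ae ?_
    filter_upwards [hφ.cfgDeriv_add_mul hψ c s] with x hx
    have sq' : ∀ u w : ℂ, ‖u + c * w‖ ^ 2 =
        ‖u‖ ^ 2 + ‖c‖ ^ 2 * ‖w‖ ^ 2 + 2 * (conj c * (conj w * u)).re := by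
      intro u w
      rw [Complex.sq_norm, Complex.sq_norm, Complex.sq_norm, Complex.sq_norm,
        Complex.normSq_add, Complex.normSq_mul]
      simp only [map_mul]
      ring_nf
    simp only [testGrad, hx, sq', formJ, mul_add, Finset.sum_add_distrib, Finset.mul_sum,
      Complex.add_re, Complex.re_sum]
    have e2 : ∀ i a, (conj c * ((1 / 2 : ℂ) *
        (conj (cfgDeriv i a (ψ s) x) * cfgDeriv i a (φ s) x))).re =
        1 / 2 * (conj c * (conj (cfgDeriv i a (ψ s) x) * cfgDeriv i a (φ s) x)).re := by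
      intro i a
      rw [mul_left_comm, show (1 / 2 : ℂ) = ((1 / 2 : ℝ) : ℂ) by norm_num, Complex.re_ofReal_mul]
    have e3 : (conj c * ((W x : ℂ) * (conj (ψ s x) * φ s x))).re =
        W x * (conj c * (conj (ψ s x) * φ s x)).re := by
      rw [mul_left_comm, Complex.re_ofReal_mul]
    simp only [e2, e3, mul_left_comm (‖c‖ ^ 2), mul_left_comm (2 : ℝ)]
    ring
  have e4 : normSq (fun s x => φ s x + c * ψ s x) = normSq φ + ‖c‖ ^ 2 * normSq ψ +
      2 * (conj c * formIp ψ φ).re := by
    simp only [normSq, formIp, Finset.mul_sum (a := conj c), Complex.re_sum]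
    rw [Finset.mul_sum (a := ‖c‖ ^ 2), Finset.mul_sum (a := (2 : ℝ)), ← Finset.sum_add_distrib,
      ← Finset.sum_add_distrib]
    refine Finset.sum_congr rfl fun s _ => ?_
    rw [← integral_const_mul (‖c‖ ^ 2), ← integral_const_mul (conj c)]
    have hA : Integrable fun x => ‖φ s x‖ ^ 2 := (hφ.memLp s).integrable_norm_pow two_ne_zero
    have hB : Integrable fun x => ‖ψ s x‖ ^ 2 := (hψ.memLp s).integrable_norm_pow two_ne_zero
    have hre : 2 * (∫ x, conj c * (conj (ψ s x) * φ s x)).re =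
        ∫ x, 2 * (conj c * (conj (ψ s x) * φ s x)).re := by
      rw [← RCLike.re_eq_complex_re, ← integral_re ((iI s).const_mul (conj c)),
        ← integral_const_mul]
    rw [hre, ← integral_add hA (hB.const_mul _),
      ← integral_add (hA.fun_add (hB.const_mul _))
        ((show Integrable fun x => (conj c * (conj (ψ s x) * φ s x)).re from
          ((iI s).const_mul (conj c)).re).const_mul 2)]
    refine integral_congr_ae (ae_of_all _ fun x => ?_)
    simp only [Complex.sq_norm, Complex.normSq_add, map_mul]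
    ring_nf
  rw [excess, excess, excess, e1, e4]
  simp only [Complex.mul_re, Complex.sub_re, Complex.sub_im, Complex.ofReal_re, Complex.ofReal_im,
    Complex.mul_im]
  ring

end Vale.Agent.P363
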