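import Vale.Agent.P363.KS.FormDefs
import Vale.Agent.P363.Top.CourantSpec

/-!
P363: what `KS/Structure` provides: the shell structure of the density of a mixture of three-electron
ground states in a potential of the class.
-/

noncomputable section

namespace Vale.Agent.P363

open MeasureTheory Filter
open scoped BigOperators Topology ENNReal

/-- Two electrons in the simple positive ground orbital `φ₀` and one in the countably many real
orbitals `f j` of the second level `μ`. -/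
structure Shells (v φ₀ : Space → ℝ) (e₀ μ : ℝ) (f : ℕ → Space → ℝ) (ρ : Space → ℝ≥0∞) :
    Prop where
  level : Top.SecondLevel v φ₀ e₀ μ
  gap : e₀ < μ
  norm_one : ∫ x, φ₀ x ^ 2 = 1
  simple : ∀ g G, Top.IsH1 g G → Top.bil v e₀ g G g G = 0 →
    g =ᵐ[volume] fun x => (∫ y, g y * φ₀ y) * φ₀ x
  eigen : ∀ j, ∃ F, Top.IsFormEigen v μ (f j) F
  orth : ∀ j, ∫ x, f j x * φ₀ x = 0
  total : ∑' j, ENNReal.ofReal (∫ x, f j x ^ 2) = 1
  density_eq : ρ =ᵐ[volume] fun r =>
    2 * ENNReal.ofReal (φ₀ r ^ 2) + ∑' j, ENNReal.ofReal (f j r ^ 2)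

namespace StructureSpec

/-- A representation of a density of three electrons has the shell structure. -/
def ShellsStmt : Prop :=
  ∀ (v : Space → ℝ) (w : ℕ → ℝ≥0∞) (Φ : ℕ → Spins 3 → Cfg 3 → ℂ) (ρ : Space → ℝ≥0∞),
    InV v → ∑' k, w k = 1 → (∀ k, IsGroundState (oneBody v) (Φ k)) →
    (ρ =ᵐ[volume] fun r => ∑' k, w k * density (Φ k) r) →
    ∃ (φ₀ : Space → ℝ) (e₀ μ : ℝ) (f : ℕ → Space → ℝ), Shells v φ₀ e₀ μ f ρ

/-- Form eigenfunctions solve the weak equation. -/
def WeakEqStmt : Prop :=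
  ∀ (v : Space → ℝ) (e : ℝ) (f : Space → ℝ) (F : Fin 3 → Space → ℝ), InV v →
    Top.IsFormEigen v e f F → WeakPoisson Set.univ f fun x => 2 * (v x - e) * f x

/-- Orthogonal maps preserving the potential preserve the ground orbital and the second level. -/
def MoveStmt : Prop :=
  ∀ (v φ₀ : Space → ℝ) (e₀ μ : ℝ) (f : ℕ → Space → ℝ) (ρ : Space → ℝ≥0∞)
    (T : Space ≃ₗᵢ[ℝ] Space), Shells v φ₀ e₀ μ f ρ → ((fun x => v (T x)) =ᵐ[volume] v) →
    ((fun x => φ₀ (T x)) =ᵐ[volume] φ₀) ∧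
      ∀ g G, Top.IsFormEigen v μ g G → ∃ G', Top.IsFormEigen v μ (fun x => g (T x)) G'

end StructureSpec

end Vale.Agent.P363
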